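import Vale.Agent.P368.Poly

namespace Vale.Agent.P368

open Finset Filter Real

lemma ev_pow (α β : ℝ) (h : α < β) (C : ℝ) :
    ∀ᶠ N : ℕ in atTop, C * (N:ℝ) ^ α * (1 + Real.log N) ≤ (N:ℝ) ^ β := by
  set δ := (β - α) / 2 with hδ
  have hδ0 : 0 < δ := by rw [hδ]; linarith
  have ht : Tendsto (fun N : ℕ => (N:ℝ) ^ δ) atTop atTop :=
    (tendsto_rpow_atTop hδ0).comp tendsto_natCast_atTop_atTop
  filter_upwards [ht.eventually_ge_atTop (|C| * (1 + 1 / δ)), eventually_ge_atTop 1] with N h1 hN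
  have hN1 : (1:ℝ) ≤ N := by exact_mod_cast hN
  have hN0 : (0:ℝ) < N := by linarith
  have hlog : Real.log N ≤ (N:ℝ) ^ δ / δ := Real.log_le_rpow_div hN0.le hδ0
  have hlog0 : 0 ≤ Real.log N := Real.log_nonneg hN1
  have h1δ : 1 ≤ (N:ℝ) ^ δ := Real.one_le_rpow hN1 hδ0.le
  have e : (N:ℝ) ^ β = (N:ℝ) ^ α * ((N:ℝ) ^ δ * (N:ℝ) ^ δ) := by
    rw [← Real.rpow_add hN0, ← Real.rpow_add hN0]; congr 1; rw [hδ]; ring
  have hα : 0 < (N:ℝ) ^ α := Real.rpow_pos_of_pos hN0 _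
  have h2 : 1 + Real.log N ≤ (1 + 1 / δ) * (N:ℝ) ^ δ := by
    have : (N:ℝ) ^ δ / δ = 1 / δ * (N:ℝ) ^ δ := by ring
    rw [add_mul, ← this]; linarith
  rw [e]
  calc C * (N:ℝ) ^ α * (1 + Real.log N) ≤ |C| * (N:ℝ) ^ α * (1 + Real.log N) := by
        gcongr; exact le_abs_self C
    _ ≤ |C| * (N:ℝ) ^ α * ((1 + 1 / δ) * (N:ℝ) ^ δ) := by gcongr
    _ = (N:ℝ) ^ α * ((|C| * (1 + 1 / δ)) * (N:ℝ) ^ δ) := by ring
    _ ≤ _ := by gcongr

lemma ev_pow' (α β : ℝ) (h : α < β) (C : ℝ) (hC : 0 ≤ C) :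
    ∀ᶠ N : ℕ in atTop, C * (N:ℝ) ^ α ≤ (N:ℝ) ^ β := by
  filter_upwards [ev_pow α β h C, eventually_ge_atTop 1] with N h1 hN
  have hN1 : (1:ℝ) ≤ N := by exact_mod_cast hN
  have hlog0 : 0 ≤ Real.log N := Real.log_nonneg hN1
  have : 0 ≤ C * (N:ℝ) ^ α := by positivity
  nlinarith

lemma ev_exp (α a β : ℝ) (hα : α < β) (ha : a < β) (hβ : 0 < β) (C D : ℝ) (hD : 0 < D) :
    ∀ᶠ N : ℕ in atTop, ∀ X : ℝ, X ≤ Real.exp (C * (N:ℝ) ^ α * (1 + Real.log N)) →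
      X * Real.exp (-(D * (N:ℝ) ^ β)) ≤ Real.exp (-(2 * (N:ℝ) ^ a)) / 3 := by
  filter_upwards [ev_pow α β hα (3 * C / D), ev_pow' a β ha (6 / D) (by positivity),
    ev_pow' 0 β hβ (6 / D) (by positivity)] with N h1 h2 h3 X hX
  rw [Real.rpow_zero, mul_one] at h3
  have k1 : C * (N:ℝ) ^ α * (1 + Real.log N) ≤ D / 3 * (N:ℝ) ^ β := by
    have := mul_le_mul_of_nonneg_left h1 (by positivity : 0 ≤ D / 3)
    calc _ = D / 3 * (3 * C / D * (N:ℝ) ^ α * (1 + Real.log N)) := by field_simp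
      _ ≤ _ := this
  have k2 : 2 * (N:ℝ) ^ a ≤ D / 3 * (N:ℝ) ^ β := by
    have := mul_le_mul_of_nonneg_left h2 (by positivity : 0 ≤ D / 3)
    calc _ = D / 3 * (6 / D * (N:ℝ) ^ a) := by field_simp; ring
      _ ≤ _ := this
  have k3 : 2 ≤ D / 3 * (N:ℝ) ^ β := by
    have := mul_le_mul_of_nonneg_left h3 (by positivity : 0 ≤ D / 3)
    calc _ = D / 3 * (6 / D) := by field_simp; ring
      _ ≤ _ := this
  have h3e : (3:ℝ) ≤ Real.exp 2 := by have := Real.add_one_le_exp 2; linarith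
  calc _ ≤ Real.exp (C * (N:ℝ) ^ α * (1 + Real.log N)) * Real.exp (-(D * (N:ℝ) ^ β)) := by gcongr
    _ = Real.exp (C * (N:ℝ) ^ α * (1 + Real.log N) - D * (N:ℝ) ^ β) := by
        rw [← Real.exp_add]; ring_nf
    _ ≤ Real.exp (-(2 * (N:ℝ) ^ a) - 2) := by apply Real.exp_le_exp.mpr; linarith
    _ = Real.exp (-(2 * (N:ℝ) ^ a)) / Real.exp 2 := Real.exp_sub _ _
    _ ≤ _ := by gcongr

lemma pow_le_exp {x L M : ℝ} {m : ℕ} (hx : 0 ≤ x) (hL : x ≤ Real.exp L) (hL0 : 0 ≤ L)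
    (hm : (m:ℝ) ≤ M) : x ^ m ≤ Real.exp (M * L) := by
  calc x ^ m ≤ Real.exp L ^ m := by gcongr
    _ = Real.exp (m * L) := (Real.exp_nat_mul L m).symm
    _ ≤ _ := by gcongr

lemma base_le {N : ℕ} (hN : 1 ≤ N) : 99 * (2 * (N:ℝ) + 1) ≤ Real.exp (296 * (1 + Real.log N)) := by
  have hN1 : (1:ℝ) ≤ N := by exact_mod_cast hN
  have hlog0 : 0 ≤ Real.log N := Real.log_nonneg hN1
  have h1 : (297:ℝ) ≤ Real.exp 296 := by have := Real.add_one_le_exp 296; linarith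
  calc _ ≤ 297 * (N:ℝ) := by linarith
    _ ≤ Real.exp 296 * Real.exp (Real.log N) := by rw [Real.exp_log (by linarith)]; gcongr
    _ = Real.exp (296 + Real.log N) := (Real.exp_add _ _).symm
    _ ≤ _ := by apply Real.exp_le_exp.mpr; linarith

lemma ceil_le_two {x : ℝ} (hx : 1 ≤ x) : (⌈x⌉₊ : ℝ) ≤ 2 * x := by
  have := Nat.ceil_lt_add_one (by linarith : 0 ≤ x); linarith

def St (d : ℕ) (b a : ℝ) : Prop :=
  ∀ᶠ N : ℕ in atTop, EB (Fin N) d ⌈(N:ℝ) ^ b⌉₊ (Real.exp (-(N:ℝ) ^ a))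

def GS (d : ℕ) (b μ a : ℝ) : Prop :=
  ∀ᶠ N : ℕ in atTop, ∀ m : ℕ, (m:ℝ) ≤ 4 * (N:ℝ) ^ μ → ∃ g, GB (Fin N) d ⌈(N:ℝ) ^ b⌉₊ m g ∧
    (2 * (N:ℝ) + 1) ^ m * g ≤ Real.exp (-(2 * (N:ℝ) ^ a)) / 3

lemma GS_zero {b μ a : ℝ} (h : μ < b) : GS 0 b μ a := by
  filter_upwards [ev_pow' μ b h 5 (by norm_num), eventually_ge_atTop 1] with N h1 hN m hm
  have hN0 : (0:ℝ) < N := by exact_mod_cast hN
  refine ⟨0, GB_zero ?_, by rw [mul_zero]; positivity⟩
  have := Real.rpow_pos_of_pos hN0 μ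
  exact Nat.lt_ceil.mpr (by linarith)

lemma GS_succ {d : ℕ} {b μ a β : ℝ} (h1 : μ < β) (h2 : a < β) (h3 : 0 < β) (h : St d b β) :
    GS (d + 1) b μ a := by
  filter_upwards [h, ev_exp μ a β h1 h2 h3 (4 * 296) 1 one_pos, eventually_ge_atTop 1]
    with N hE hX hN m hm
  refine ⟨_, GB_succ hE, ?_⟩
  have hN1 : (1:ℝ) ≤ N := by exact_mod_cast hN
  have hlog0 : 0 ≤ Real.log N := Real.log_nonneg hN1
  have := hX ((99 * (2 * (N:ℝ) + 1)) ^ m) (by
    refine (pow_le_exp (by positivity) (base_le hN) (by positivity) hm).trans (le_of_eq ?_)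
    congr 1; ring)
  rw [one_mul, mul_pow] at this
  calc _ = 99 ^ m * (2 * (N:ℝ) + 1) ^ m * Real.exp (-(N:ℝ) ^ β) := by ring
    _ ≤ _ := this

lemma St_step {d : ℕ} {a b c : ℝ} (ha : 0 < a) (hab : a < b) (hbc : b < c) (hg : c - b < b - a)
    (hG : ∀ μ, μ < b → GS d b μ a) (hc : St d c b) : St d b a := by
  set τe := (a + (2 * b - c)) / 2 with hτe
  set μ := ((τe + c) / 2 + b) / 2 with hμ
  have hτa : a < τe := by rw [hτe]; linarith
  have hτ2 : τe < 2 * b - c := by rw [hτe]; linarith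
  have hμb : μ < b := by rw [hμ]; linarith
  have hμτ : (τe + c) / 2 < μ := by rw [hμ]; linarith
  have hτμ : τe < μ := by linarith
  set β := μ + (τe - c) / 2 with hβ
  have hβτ : τe < β := by rw [hβ]; linarith
  filter_upwards [hG μ hμb, hc, ev_pow' μ c (by linarith) 4 (by norm_num),
    ev_exp τe a β hβτ (by linarith) (by linarith) (3 + 2 * c) (1 / 2) (by norm_num),
    ev_exp μ a b hμb hab (by linarith) (4 * 296) 1 one_pos, eventually_ge_atTop 1]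
    with N h1 h2 h3 h4 h5 hN
  have hN1 : (1:ℝ) ≤ N := by exact_mod_cast hN
  have hN0 : (0:ℝ) < N := by linarith
  have hlog0 : 0 ≤ Real.log N := Real.log_nonneg hN1
  set t := ⌈(N:ℝ) ^ τe⌉₊ with ht
  set u := ⌈(N:ℝ) ^ μ⌉₊ with hu
  set s' := ⌈(N:ℝ) ^ c⌉₊ with hs'
  have o1 : 1 ≤ (N:ℝ) ^ τe := Real.one_le_rpow hN1 (by linarith)
  have o2 : 1 ≤ (N:ℝ) ^ μ := Real.one_le_rpow hN1 (by linarith)
  have o3 : 1 ≤ (N:ℝ) ^ c := Real.one_le_rpow hN1 (by linarith)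
  have t1 : (t:ℝ) ≤ 2 * (N:ℝ) ^ τe := ceil_le_two o1
  have t2 : (N:ℝ) ^ τe ≤ t := Nat.le_ceil _
  have u1 : (u:ℝ) ≤ 2 * (N:ℝ) ^ μ := ceil_le_two o2
  have u2 : (N:ℝ) ^ μ ≤ u := Nat.le_ceil _
  have s1 : (s':ℝ) ≤ 2 * (N:ℝ) ^ c := ceil_le_two o3
  have s2 : (N:ℝ) ^ c ≤ s' := Nat.le_ceil _
  have τμ : (N:ℝ) ^ τe ≤ (N:ℝ) ^ μ := Real.rpow_le_rpow_of_exponent_le hN1 hτμ.le
  have hm : ((t + u : ℕ) : ℝ) ≤ 4 * (N:ℝ) ^ μ := by push_cast; linarith
  obtain ⟨g, hg1, hg2⟩ := h1 (t + u) hm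
  set θ := (N:ℝ) ^ ((τe - c) / 2) / 2 with hθ
  have θ0 : 0 ≤ θ := by positivity
  have θ1 : θ ≤ 1 := by
    have := Real.rpow_le_one_of_one_le_of_nonpos hN1 (by linarith : (τe - c) / 2 ≤ 0)
    rw [hθ]; linarith
  have θ2 : θ ^ 2 * s' ≤ t := by
    have e : ((N:ℝ) ^ ((τe - c) / 2)) ^ 2 * (N:ℝ) ^ c = (N:ℝ) ^ τe := by
      rw [sq, ← Real.rpow_add hN0, ← Real.rpow_add hN0]; congr 1; ring
    calc θ ^ 2 * s' ≤ θ ^ 2 * (2 * (N:ℝ) ^ c) := by gcongr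
      _ = ((N:ℝ) ^ ((τe - c) / 2)) ^ 2 * (N:ℝ) ^ c / 2 := by rw [hθ]; ring
      _ ≤ t := by rw [e]; linarith
  have θ3 : 1 / 2 * (N:ℝ) ^ β ≤ u * θ := by
    calc 1 / 2 * (N:ℝ) ^ β = (N:ℝ) ^ μ * θ := by rw [hβ, Real.rpow_add hN0, hθ]; ring
      _ ≤ u * θ := by gcongr
  have hc0 : 0 < c := by linarith
  have sb : (s':ℝ) ≤ Real.exp ((1 + c) * (1 + Real.log N)) := by
    have h2e : (2:ℝ) ≤ Real.exp 1 := by have := Real.add_one_le_exp 1; linarith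
    calc (s':ℝ) ≤ 2 * (N:ℝ) ^ c := s1
      _ ≤ Real.exp 1 * Real.exp (Real.log N * c) := by rw [← Real.rpow_def_of_pos hN0]; gcongr
      _ = Real.exp (1 + Real.log N * c) := (Real.exp_add _ _).symm
      _ ≤ _ := by apply Real.exp_le_exp.mpr; nlinarith
  have hτb : 2 * (s' : ℝ) ^ t * Real.exp (-(u * θ)) ≤ Real.exp (-(2 * (N:ℝ) ^ a)) / 3 := by
    refine le_trans ?_ (h4 (2 * (s' : ℝ) ^ t) ?_)
    · gcongr
    · have k := pow_le_exp (by positivity) sb (by positivity) t1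
      have h2e : (2:ℝ) ≤ Real.exp ((N:ℝ) ^ τe * (1 + Real.log N)) := by
        have := Real.add_one_le_exp ((N:ℝ) ^ τe * (1 + Real.log N)); nlinarith
      calc _ ≤ Real.exp ((N:ℝ) ^ τe * (1 + Real.log N)) *
            Real.exp (2 * (N:ℝ) ^ τe * ((1 + c) * (1 + Real.log N))) := by gcongr
        _ = _ := by rw [← Real.exp_add]; congr 1; ring
  have hexp1 : Real.exp (-(2 * (N:ℝ) ^ a)) / 3 ≤ 1 := by
    have : Real.exp (-(2 * (N:ℝ) ^ a)) ≤ 1 := by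
      apply Real.exp_le_one_iff.mpr; have : 0 ≤ (N:ℝ) ^ a := by positivity
      linarith
    linarith
  have hms : t + u ≤ s' := by
    have : ((t + u : ℕ) : ℝ) ≤ s' := by linarith
    exact_mod_cast this
  have ht1 : 1 ≤ t := by
    have : (1:ℝ) ≤ t := by linarith
    exact_mod_cast this
  have hA := approx_cheb t u s' θ ht1 θ0 θ1 θ2 hms hτb hexp1
  have hR := EB_rec (by positivity) hA hg1 (h2.mono (Nat.le_succ _) le_rfl)
  refine hR.mono le_rfl ?_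
  rw [Fintype.card_fin]
  have k5 := h5 ((2 * (N:ℝ) + 1) ^ (t + u)) (by
    have hb : 2 * (N:ℝ) + 1 ≤ Real.exp (296 * (1 + Real.log N)) := by
      have := base_le hN; linarith
    refine (pow_le_exp (by positivity) hb (by positivity) hm).trans (le_of_eq ?_)
    congr 1; ring)
  rw [one_mul] at k5
  refine Real.sqrt_le_iff.mpr ⟨by positivity, ?_⟩
  have e : Real.exp (-(N:ℝ) ^ a) ^ 2 = Real.exp (-(2 * (N:ℝ) ^ a)) := by
    rw [sq, ← Real.exp_add]; congr 1; ring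
  rw [e]; linarith

lemma St_big {d : ℕ} {a b : ℝ} (hb : 1 < b) : St d b a := by
  filter_upwards [ev_pow' 1 b hb 2 (by norm_num), eventually_ge_atTop 1] with N h1 hN
  have hN1 : (1:ℝ) ≤ N := by exact_mod_cast hN
  refine EB_big ?_ (by positivity)
  rw [Fintype.card_fin, Real.rpow_one] at *
  exact Nat.lt_ceil.mpr (by linarith)

lemma St_of_GS {d : ℕ} (hG : ∀ a b μ : ℝ, 0 < a → a < b → μ < b → GS d b μ a) :
    ∀ a b : ℝ, 0 < a → a < b → St d b a := by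
  have key : ∀ i : ℕ, ∀ a b : ℝ, 0 < a → a < b → 1 < b + i * (b - a) / 2 → St d b a := by
    intro i
    induction i with
    | zero => intro a b _ _ h; exact St_big (by simpa using h)
    | succ i ih =>
      intro a b ha hab h
      have hi : (0:ℝ) ≤ i := by positivity
      set g' := (b - a) * ((i + 1) / (i + 2)) with hg'
      have g0 : 0 < g' := by rw [hg']; have : 0 < b - a := by linarith
                             positivity
      have g1 : g' < b - a := by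
        rw [hg']; refine mul_lt_of_lt_one_right (by linarith) ?_
        rw [div_lt_one (by linarith)]; linarith
      refine St_step (c := b + g') ha hab (by linarith) (by linarith)
        (fun μ hμ => hG a b μ ha hab hμ) (ih b (b + g') (by linarith) (by linarith) ?_)
      have e : g' + i * (b + g' - b) / 2 = (i + 1) * (b - a) / 2 := by
        rw [add_sub_cancel_left, hg']; field_simp; ring
      push_cast at h; linarith
  intro a b ha hab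
  obtain ⟨i, hi⟩ := exists_nat_gt (2 / (b - a))
  refine key i a b ha hab ?_
  rw [div_lt_iff₀ (by linarith)] at hi
  linarith

theorem St_all (d : ℕ) : ∀ a b : ℝ, 0 < a → a < b → St d b a := by
  induction d with
  | zero => exact St_of_GS fun a b μ _ _ h => GS_zero h
  | succ d ih =>
    refine St_of_GS fun a b μ ha hab h => ?_
    have h1 : max a μ < b := max_lt hab h
    have h2 := le_max_left a μ
    have h3 := le_max_right a μ
    exact GS_succ (β := (max a μ + b) / 2) (by linarith) (by linarith) (by linarith)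
      (ih _ _ (by linarith) (by linarith))

end Vale.Agent.P368
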