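import Mathlib

namespace Vale.Agent.P368

/-- Gates on `N` qubits: an arbitrary one-qubit unitary on qubit `i` (rows and columns indexed by
`false` = ket 0, `true` = ket 1), or a generalized Toffoli gate with nonempty control set `C` and
target `t` outside `C`. -/
inductive Gate (N : ℕ) : Type
  | single (i : Fin N) (u : Matrix.unitaryGroup Bool ℂ) : Gate N
  | toffoli (C : Finset (Fin N)) (t : Fin N) (hC : C.Nonempty) (ht : t ∉ C) : Gate N

/-- The qubits a gate acts on. -/
def Gate.support {N : ℕ} : Gate N → Finset (Fin N)
  | .single i _ => {i}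
  | .toffoli C t _ _ => insert t C

/-- The matrix of a gate in the computational basis (row `x`, column `y`). -/
noncomputable def Gate.mat {N : ℕ} : Gate N → Matrix (Fin N → Bool) (Fin N → Bool) ℂ
  | .single i u => Matrix.of fun x y =>
      if ∀ j, j ≠ i → x j = y j then (u : Matrix Bool Bool ℂ) (x i) (y i) else 0
  | .toffoli C t _ _ => Matrix.of fun x y =>
      if x = Function.update y t (xor (y t) (decide (∀ j ∈ C, y j = true))) then 1 else 0

/-- A layer: a list of gates with pairwise disjoint supports. -/
def IsLayer {N : ℕ} (L : List (Gate N)) : Prop :=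
  L.Pairwise fun g g' => Disjoint g.support g'.support

/-- Run a circuit (a list of layers, applied first to last) on a state vector. -/
noncomputable def run {N : ℕ} (C : List (List (Gate N))) (ψ : (Fin N → Bool) → ℂ) :
    (Fin N → Bool) → ℂ :=
  C.foldl (fun φ L => L.foldl (fun χ g => g.mat.mulVec χ) φ) ψ

/-- The bit string `x` padded by zeros to length `N`. -/
def pad {n : ℕ} (N : ℕ) (x : Fin n → Bool) : Fin N → Bool :=
  fun i => if h : i.val < n then x ⟨i.val, h⟩ else false

/-- The basis state ket x tensor ket 0. -/
noncomputable def input {n : ℕ} (N : ℕ) (x : Fin n → Bool) : (Fin N → Bool) → ℂ :=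
  fun z => if z = pad N x then 1 else 0

/-- Probability that measuring qubit `out` after running `C` on input `x` gives `b`. -/
noncomputable def prob {n N : ℕ} (C : List (List (Gate N))) (out : Fin N) (x : Fin n → Bool)
    (b : Bool) : ℝ :=
  ∑ z : Fin N → Bool, if z out = b then ‖run C (input N x) z‖ ^ 2 else 0

/-- Parity of a bit string. -/
def par {n : ℕ} (x : Fin n → Bool) : Bool :=
  decide (Odd (Finset.univ.filter fun i => x i = true).card)

/-- Parity correlation: average over `x` of Pr[correct] - Pr[wrong]. -/
noncomputable def corr (n : ℕ) {N : ℕ} (C : List (List (Gate N))) (out : Fin N) : ℝ :=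
  (∑ x : Fin n → Bool, (prob C out x (par x) - prob C out x (!par x))) / 2 ^ n

end Vale.Agent.P368
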