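import Vale.Agent.P368.Asym
import Vale.Agent.P368.Defs

namespace Vale.Agent.P368

open Matrix Finset
open scoped Matrix.Norms.L2Operator

set_option linter.unusedSectionVars false

variable {ι : Type} [Fintype ι] [DecidableEq ι]

noncomputable def rr : ℂ := ((√2)⁻¹ : ℝ)
lemma rr_mul : rr * rr = 1 / 2 := by
  unfold rr; rw [← Complex.ofReal_mul, ← mul_inv, Real.mul_self_sqrt (by norm_num)]; simp
lemma star_rr : star rr = rr := by unfold rr; exact Complex.conj_ofReal _

noncomputable def had : M2 := mk2 rr rr rr (-rr)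

lemma star_had : star had = had := by unfold had; rw [mk2_star]; simp only [star_neg, star_rr]
lemma had_mul : had * had = 1 := by
  unfold had; rw [mk2_mul, mk2_one]
  refine mk2_congr ?_ ?_ ?_ ?_ <;> first | ring1 | linear_combination 2 * rr_mul
lemma had_unitary : had ∈ unitary M2 := by
  rw [Unitary.mem_iff, star_had]; exact ⟨had_mul, had_mul⟩
lemma had_p1 : had * p1 * had = mk2 (1/2) (-1/2) (-1/2) (1/2) := by
  unfold had; rw [p1_eq, mk2_mul, mk2_mul]
  refine mk2_congr ?_ ?_ ?_ ?_ <;> first | linear_combination rr_mul | linear_combination -rr_mul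

lemma prod_one_erase (i : ι) (x y : ι → Bool) :
    ∏ j ∈ univ.erase i, (1 : M2) (x j) (y j) = if ∀ j, j ≠ i → x j = y j then 1 else 0 := by
  split_ifs with h
  · refine Finset.prod_eq_one fun j hj => ?_
    rw [h j (Finset.ne_of_mem_erase hj), one_apply_eq]
  · push Not at h; obtain ⟨j, hj, hxy⟩ := h
    exact Finset.prod_eq_zero (Finset.mem_erase.mpr ⟨hj, Finset.mem_univ j⟩) (one_apply_ne hxy)

lemma single_eq {N : ℕ} (i : Fin N) (u : Matrix.unitaryGroup Bool ℂ) :
    (Gate.single i u).mat = prodM (Function.update (fun _ => (1 : M2)) i u) := by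
  ext x y
  rw [prodM_update, prod_one_erase]
  simp only [Gate.mat, Matrix.of_apply]
  split_ifs <;> simp

lemma toffoli_eq {N : ℕ} (C : Finset (Fin N)) (t : Fin N) (hC : C.Nonempty) (ht : t ∉ C) :
    (Gate.toffoli C t hC ht).mat = prodM (Function.update (fun _ => (1 : M2)) t had) *
      Lm {insert t C} * prodM (Function.update (fun _ => (1 : M2)) t had) := by
  have e1 : Lm ({insert t C} : Finset (Finset (Fin N))) = 1 - (2:ℂ) • Hm (insert t C) := by
    have := Lm_insert (T := (∅ : Finset (Finset (Fin N)))) (g := insert t C) (by simp)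
    rw [Lm_empty, mul_one] at this; exact this
  have e2 : prodM (Function.update (fun _ => (1 : M2)) t had) *
      prodM (Function.update (fun _ : Fin N => (1 : M2)) t had) = 1 := by
    rw [prodM_mul, ← prodM_one]; congr 1; ext1 i
    by_cases hi : i = t
    · subst hi; simp [had_mul]
    · simp [Function.update_of_ne hi]
  have e3 : prodM (Function.update (fun _ => (1 : M2)) t had) * Hm (insert t C) *
      prodM (Function.update (fun _ : Fin N => (1 : M2)) t had) =
      prodM (Function.update (fun i => if i ∈ C then p1 else 1) t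
        (mk2 (1/2) (-1/2) (-1/2) (1/2))) := by
    rw [Hm_eq_prodM, prodM_mul, prodM_mul]; congr 1; ext1 i
    by_cases hi : i = t
    · subst hi; simp only [Function.update_self, Finset.mem_insert_self, if_true]; exact had_p1
    · simp [Function.update_of_ne hi, hi]
  rw [e1, mul_sub, sub_mul, mul_one, e2, mul_smul_comm, smul_mul_assoc, e3]
  ext x y
  simp only [Gate.mat, Matrix.of_apply, Matrix.sub_apply, Matrix.smul_apply, prodM_update,
    smul_eq_mul]
  by_cases h1 : ∀ j, j ≠ t → x j = y j
  · have hx : ∀ b, (x = Function.update y t b) ↔ x t = b := by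
      intro b; constructor
      · intro h; rw [h]; simp
      · intro h; ext j; by_cases hj : j = t
        · subst hj; simp [h]
        · rw [Function.update_of_ne hj, h1 j hj]
    have hxy : (1 : Mat (Fin N)) x y = if x t = y t then 1 else 0 := by
      have := hx (y t); rw [Function.update_eq_self] at this
      rw [Matrix.one_apply]; simp only [this]
    rw [hxy]; simp only [hx]
    by_cases h2 : ∀ j ∈ C, y j = true
    · have : ∏ j ∈ univ.erase t, (if j ∈ C then p1 else 1) (x j) (y j) = 1 := by
        refine Finset.prod_eq_one fun j hj => ?_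
        rw [h1 j (Finset.ne_of_mem_erase hj)]
        by_cases hj' : j ∈ C
        · simp [hj', h2 j hj', p1]
        · simp [hj']
      rw [this, decide_eq_true h2]
      cases x t <;> cases y t <;> simp [mk2] <;> norm_num
    · have : ∏ j ∈ univ.erase t, (if j ∈ C then p1 else 1) (x j) (y j) = 0 := by
        push Not at h2; obtain ⟨j, hj, hy⟩ := h2
        have hjt : j ≠ t := fun h => ht (h ▸ hj)
        refine Finset.prod_eq_zero (Finset.mem_erase.mpr ⟨hjt, Finset.mem_univ j⟩) ?_
        rw [h1 j hjt]; simp at hy; simp [hj, hy, p1]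
      rw [this, decide_eq_false h2]; simp
  · push Not at h1; obtain ⟨j, hj, hxy⟩ := h1
    have a1 : ∀ b, x ≠ Function.update y t b := by
      intro b h; apply hxy; rw [h, Function.update_of_ne hj]
    have a2 : x ≠ y := fun h => hxy (h ▸ rfl)
    have : ∏ j ∈ univ.erase t, (if j ∈ C then p1 else 1) (x j) (y j) = 0 := by
      refine Finset.prod_eq_zero (Finset.mem_erase.mpr ⟨hj, Finset.mem_univ j⟩) ?_
      split_ifs
      · unfold p1; exact diagonal_apply_ne _ hxy
      · exact one_apply_ne hxy
    rw [this, if_neg (a1 _), one_apply_ne a2]; simp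

/-- normal form of an operator supported on `S` -/
def NF (S : Finset ι) (M : Mat ι) : Prop :=
  ∃ (w w' : ι → M2) (T : Finset (Finset ι)), (∀ i, w i ∈ unitary M2) ∧ (∀ i, w' i ∈ unitary M2) ∧
    (∀ i ∉ S, w i = 1) ∧ (∀ i ∉ S, w' i = 1) ∧ PD T ∧ (∀ g ∈ T, g.Nonempty ∧ g ⊆ S) ∧
    M = prodM w * Lm T * prodM w'

lemma NF.mul {S S' : Finset ι} {M M' : Mat ι} (h : NF S M) (h' : NF S' M') (hd : Disjoint S S') :
    NF (S ∪ S') (M * M') := by
  obtain ⟨w, w', T, hw, hw', hs, hs', hT, hg, rfl⟩ := h
  obtain ⟨v, v', R, hv, hv', ht, ht', hR, hr, rfl⟩ := h'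
  have c1 : prodM w' * prodM v = prodM v * prodM w' := by
    rw [prodM_mul, prodM_mul]; congr 1; ext1 i
    by_cases hi : i ∈ S
    · rw [ht i (Finset.disjoint_left.mp hd hi), mul_one, one_mul]
    · rw [hs' i hi, mul_one, one_mul]
  have c2 : Lm T * prodM v = prodM v * Lm T :=
    prodM_comm_diag v S' ht _ (lf_indep T S' fun g h => hd.mono_left (hg g h).2)
  have c3 : Lm R * prodM w' = prodM w' * Lm R :=
    prodM_comm_diag w' S hs' _ (lf_indep R S fun g h => hd.symm.mono_left (hr g h).2)
  have dTR : Disjoint T R := by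
    rw [Finset.disjoint_left]; intro g h1 h2
    obtain ⟨i, hi⟩ := (hg g h1).1
    exact Finset.disjoint_left.mp hd ((hg g h1).2 hi) ((hr g h2).2 hi)
  refine ⟨fun i => w i * v i, fun i => w' i * v' i, T ∪ R, fun i => mul_mem (hw i) (hv i),
    fun i => mul_mem (hw' i) (hv' i), fun i hi => ?_, fun i hi => ?_, ?_, ?_, ?_⟩
  · rw [Finset.mem_union, not_or] at hi; simp only [hs i hi.1, ht i hi.2, mul_one]
  · rw [Finset.mem_union, not_or] at hi; simp only [hs' i hi.1, ht' i hi.2, mul_one]
  · intro g h1 g' h2 hne
    rcases Finset.mem_union.mp h1 with h1 | h1 <;> rcases Finset.mem_union.mp h2 with h2 | h2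
    · exact hT g h1 g' h2 hne
    · exact hd.mono (hg g h1).2 (hr g' h2).2
    · exact hd.symm.mono (hr g h1).2 (hg g' h2).2
    · exact hR g h1 g' h2 hne
  · intro g h1
    rcases Finset.mem_union.mp h1 with h1 | h1
    · exact ⟨(hg g h1).1, (hg g h1).2.trans Finset.subset_union_left⟩
    · exact ⟨(hr g h1).1, (hr g h1).2.trans Finset.subset_union_right⟩
  · rw [← prodM_mul, ← prodM_mul, Lm_union dTR]
    calc _ = prodM w * Lm T * (prodM w' * prodM v) * Lm R * prodM v' := by simp only [mul_assoc]
      _ = prodM w * (Lm T * prodM v) * (prodM w' * Lm R) * prodM v' := by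
          rw [c1]; simp only [mul_assoc]
      _ = _ := by rw [c2, ← c3]; simp only [mul_assoc]

lemma gate_NF {N : ℕ} (g : Gate N) : NF g.support g.mat := by
  cases g with
  | single i u =>
    refine ⟨Function.update (fun _ => (1 : M2)) i u, fun _ => 1, ∅, fun j => ?_, fun _ => one_mem _,
      fun j hj => ?_, fun _ _ => rfl, fun _ h => absurd h (Finset.notMem_empty _),
      fun _ h => absurd h (Finset.notMem_empty _), ?_⟩
    · by_cases hj : j = i
      · subst hj; simp only [Function.update_self]; exact u.2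
      · rw [Function.update_of_ne hj]; exact one_mem _
    · have : j ≠ i := by simpa [Gate.support] using hj
      rw [Function.update_of_ne this]
    · rw [single_eq, Lm_empty, prodM_one, mul_one, mul_one]
  | toffoli C t hC ht =>
    have hu : ∀ j, Function.update (fun _ : Fin N => (1 : M2)) t had j ∈ unitary M2 := by
      intro j
      by_cases hj : j = t
      · subst hj; simp only [Function.update_self]; exact had_unitary
      · rw [Function.update_of_ne hj]; exact one_mem _
    have h1 : ∀ j ∉ (Gate.toffoli C t hC ht).support,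
        Function.update (fun _ : Fin N => (1 : M2)) t had j = 1 := by
      intro j hj
      have : j ≠ t := by rintro rfl; simp [Gate.support] at hj
      rw [Function.update_of_ne this]
    refine ⟨_, _, {insert t C}, hu, hu, h1, h1, ?_, ?_, toffoli_eq C t hC ht⟩
    · intro g hg g' hg' hne
      rw [Finset.mem_singleton] at hg hg'; exact absurd (hg.trans hg'.symm) hne
    · intro g hg; rw [Finset.mem_singleton] at hg; subst hg
      exact ⟨Finset.insert_nonempty _ _, subset_rfl⟩

lemma layer_NF {N : ℕ} (L : List (Gate N)) (hL : IsLayer L) :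
    ∃ S M, NF S M ∧ (∀ S', (∀ g ∈ L, Disjoint g.support S') → Disjoint S S') ∧
      ∀ φ, L.foldl (fun χ g => g.mat.mulVec χ) φ = M.mulVec φ := by
  induction L with
  | nil =>
    refine ⟨∅, 1, ⟨fun _ => 1, fun _ => 1, ∅, fun _ => one_mem _, fun _ => one_mem _,
      fun _ _ => rfl, fun _ _ => rfl, fun _ h => absurd h (Finset.notMem_empty _),
      fun _ h => absurd h (Finset.notMem_empty _), ?_⟩, fun _ _ => by simp, fun φ => by simp⟩
    rw [Lm_empty, prodM_one, mul_one, mul_one]
  | cons g L ih =>
    obtain ⟨h1, h2⟩ := List.pairwise_cons.mp hL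
    obtain ⟨S, M, hM, hS, hφ⟩ := ih h2
    refine ⟨S ∪ g.support, M * g.mat, hM.mul (gate_NF g) (hS _ fun g' hg' => (h1 g' hg').symm),
      fun S' hS' => ?_, fun φ => ?_⟩
    · rw [Finset.disjoint_union_left]
      exact ⟨hS S' fun g' hg' => hS' g' (List.mem_cons_of_mem _ hg'), hS' g List.mem_cons_self⟩
    · rw [List.foldl_cons, hφ, Matrix.mulVec_mulVec]

lemma circ_cls {N : ℕ} (C : List (List (Gate N))) (hC : ∀ L ∈ C, IsLayer L) :
    ∃ U : Mat (Fin N), Cls C.length U ∧ ∀ ψ, run C ψ = U.mulVec ψ := by
  induction C with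
  | nil => exact ⟨1, Cls.one _, fun ψ => by simp [run]⟩
  | cons L C ih =>
    obtain ⟨U, hU, hψ⟩ := ih fun L' h => hC L' (List.mem_cons_of_mem _ h)
    obtain ⟨S, M, ⟨w, w', T, hw, hw', _, _, hT, _, rfl⟩, _, hφ⟩ :=
      layer_NF L (hC L List.mem_cons_self)
    refine ⟨U * prodM w * Lm T * prodM w', ⟨_, T, w', hU.mul_right hw, hT, hw', rfl⟩, fun ψ => ?_⟩
    have : run (L :: C) ψ = run C (L.foldl (fun χ g => g.mat.mulVec χ) ψ) := rfl
    rw [this, hψ, hφ, Matrix.mulVec_mulVec]; simp only [mul_assoc]

lemma entry_le_norm (M : Mat ι) (a b : ι → Bool) : ‖M a b‖ ≤ ‖M‖ := by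
  have h := l2_opNorm_mulVec M (EuclideanSpace.single b 1)
  rw [EuclideanSpace.norm_single, norm_one, mul_one] at h
  refine le_trans ?_ h
  refine le_trans (le_of_eq ?_) (PiLp.norm_apply_le _ a)
  simp

noncomputable def zp (b : Bool) : M2 := mk2 1 0 0 (if b = true then -1 else 1)

lemma zp_unitary (b : Bool) : zp b ∈ unitary M2 := by
  rw [Unitary.mem_iff, zp, mk2_star, mk2_mul, mk2_mul, mk2_one]; cases b <;> simp

noncomputable def phi (B : Finset ι) (z : ι → Bool) : ℂ :=
  ∏ i, if i ∈ B then (if z i = true then -1/2 else 1/2) else (if z i = true then 0 else 1)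

lemma corr_bound {d s : ℕ} {e : ℝ} (hE : EB ι d s e) (A B : Finset ι) (hs : s ≤ B.card)
    {U : Mat ι} (hU : Cls d U) : ‖∑ z, phi B z * (star U * Dm A * U) z z‖ ≤ e := by
  set O := star U * Dm A * U with hO
  set w : (ι → Bool) → ι → M2 := fun y i => (if i ∈ B then had else 1) * zp (y i) with hw
  have hwu : ∀ y i, w y i ∈ unitary M2 := by
    intro y i; refine mul_mem ?_ (zp_unitary _)
    split_ifs; exacts [had_unitary, one_mem _]
  set a : ι → Bool := fun i => decide (i ∈ B) with ha
  set o : ι → Bool := fun _ => false with ho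
  have hb : ∀ y, ‖(prodM (w y) * O * star (prodM (w y))) a o‖ ≤ e := by
    intro y
    have h1 := hE (prodM (w y) * star U) (hU.adj.mul_left (hwu y)) A B
    rw [star_mul, star_star] at h1
    have e1 : prodM (w y) * star U * Dm A * (U * star (prodM (w y)))
        = prodM (w y) * O * star (prodM (w y)) := by rw [hO]; simp only [mul_assoc]
    rw [e1] at h1
    refine le_trans (le_of_eq ?_) ((entry_le_norm _ a o).trans h1)
    unfold Fm Dm
    rw [mul_diagonal, diagonal_mul]
    have w1 : wt B a = B.card := by
      unfold wt; congr 1; exact Finset.filter_true_of_mem fun i hi => by simp [ha, hi]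
    have w2 : wt B o = 0 := wt_eq_zero.mpr fun _ _ => rfl
    rw [w1, w2, if_pos hs, if_pos rfl, one_mul, mul_one]
  have key : ∀ z z' : ι → Bool, ∑ y, prodM (w y) a z * star (prodM (w y) o z') =
      if z = z' then 2 ^ Fintype.card ι * phi B z else 0 := by
    intro z z'
    have e1 : ∑ y, prodM (w y) a z * star (prodM (w y) o z') =
        ∏ i, ∑ b : Bool, ((if i ∈ B then had else 1) * zp b) (a i) (z i) *
          star (((if i ∈ B then had else 1) * zp b) false (z' i)) := by
      rw [Finset.prod_univ_sum, Fintype.piFinset_univ]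
      refine Finset.sum_congr rfl fun y _ => ?_
      rw [prodM_apply, prodM_apply, star_prod, ← Finset.prod_mul_distrib]
    have e2 : ∀ i, ∑ b : Bool, ((if i ∈ B then had else 1) * zp b) (a i) (z i) *
          star (((if i ∈ B then had else 1) * zp b) false (z' i)) =
        if z i = z' i then 2 * (if i ∈ B then (if z i = true then -1/2 else 1/2)
          else (if z i = true then 0 else 1)) else 0 := by
      intro i
      have hs : (starRingEnd ℂ) rr = rr := star_rr
      by_cases hi : i ∈ B
      · simp only [ha, hi, if_true, decide_true, had, zp, mk2_mul]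
        cases z i <;> cases z' i <;> simp [mk2, hs] <;>
          first | linear_combination 2 * rr_mul | linear_combination -2 * rr_mul
      · simp only [ha, hi, if_false, decide_false, one_mul, zp]
        cases z i <;> cases z' i <;> simp [mk2] <;> norm_num
    rw [e1]; simp only [e2]
    split_ifs with h
    · subst h; simp only [if_true]
      rw [Finset.prod_mul_distrib]; simp [phi]
    · obtain ⟨i, hi⟩ := Function.ne_iff.mp h
      exact Finset.prod_eq_zero (Finset.mem_univ i) (if_neg hi)
  have tot : ∑ y, (prodM (w y) * O * star (prodM (w y))) a o =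
      2 ^ Fintype.card ι * ∑ z, phi B z * O z z := by
    have : ∀ y, (prodM (w y) * O * star (prodM (w y))) a o =
        ∑ z, ∑ z', O z z' * (prodM (w y) a z * star (prodM (w y) o z')) := by
      intro y
      rw [Finset.sum_comm]
      simp only [Matrix.mul_apply, Matrix.star_apply, Finset.sum_mul]
      refine Finset.sum_congr rfl fun _ _ => Finset.sum_congr rfl fun _ _ => by ring
    simp only [this]
    rw [Finset.sum_comm, Finset.mul_sum]
    refine Finset.sum_congr rfl fun z _ => ?_
    rw [Finset.sum_comm]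
    simp only [← Finset.mul_sum, key, mul_ite, mul_zero]
    rw [Finset.sum_ite_eq]; simp; ring
  have h2 : ‖∑ y, (prodM (w y) * O * star (prodM (w y))) a o‖ ≤ 2 ^ Fintype.card ι * e := by
    refine (norm_sum_le _ _).trans ((Finset.sum_le_sum fun y _ => hb y).trans ?_)
    simp
  rw [tot, norm_mul, norm_pow] at h2
  have : ‖(2:ℂ)‖ = 2 := by simp
  rw [this] at h2
  exact le_of_mul_le_mul_left h2 (by positivity)

end Vale.Agent.P368
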