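import Vale.Agent.P368.Circ

namespace Vale.Agent.P368

open Matrix Finset Filter
open scoped Matrix.Norms.L2Operator

noncomputable def sg {n : ℕ} (x : Fin n → Bool) : ℝ := ∏ i, if x i = true then -1 else 1

lemma sg_eq {n : ℕ} (x : Fin n → Bool) : sg x = if par x = true then -1 else 1 := by
  unfold sg par
  rw [Finset.prod_ite, Finset.prod_const, Finset.prod_const_one, mul_one]
  by_cases h : Odd (Finset.univ.filter fun i => x i = true).card
  · rw [h.neg_one_pow]; simp [h]
  · rw [(Nat.not_odd_iff_even.mp h).neg_one_pow]; simp [h]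

lemma sum_sg {n : ℕ} (hn : 1 ≤ n) : ∑ x : Fin n → Bool, sg x = 0 := by
  unfold sg
  have := Finset.prod_univ_sum (fun _ : Fin n => (univ : Finset Bool))
    (fun _ b => if b = true then (-1:ℝ) else 1)
  rw [Fintype.piFinset_univ] at this
  rw [← this]
  exact Finset.prod_eq_zero (Finset.mem_univ ⟨0, hn⟩) (by simp)

lemma pad_cast {n N : ℕ} (h : n ≤ N) (x : Fin n → Bool) (j : Fin n) :
    pad N x (Fin.castLE h j) = x j := by
  unfold pad; simp

lemma pad_inj {n N : ℕ} (h : n ≤ N) : Function.Injective (pad (n := n) N) := by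
  intro x y hxy; ext j; rw [← pad_cast h x j, ← pad_cast h y j, hxy]

def inB (n N : ℕ) : Finset (Fin N) := univ.filter fun i => i.val < n

lemma card_inB {n N : ℕ} (h : n ≤ N) : n ≤ (inB n N).card := by
  have : (univ : Finset (Fin n)).card ≤ (inB n N).card :=
    Finset.card_le_card_of_injOn (Fin.castLE h) (fun j _ => by simp [inB])
      (Fin.castLE_injective h).injOn
  simpa using this

lemma phi_pad {n N : ℕ} (h : n ≤ N) (x : Fin n → Bool) :
    phi (inB n N) (pad N x) = ((sg x / 2 ^ n : ℝ) : ℂ) := by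
  have e : ((sg x / 2 ^ n : ℝ) : ℂ) = ∏ j : Fin n, (if x j = true then -1/2 else 1/2 : ℂ) := by
    have : ∀ j : Fin n, (if x j = true then -1/2 else 1/2 : ℂ)
        = (((if x j = true then -1 else 1 : ℝ)) : ℂ) / 2 := by
      intro j; split_ifs <;> simp
    simp only [this]
    rw [Finset.prod_div_distrib]; unfold sg; simp
  rw [e]; unfold phi; symm
  refine Fintype.prod_of_injective (Fin.castLE h) (Fin.castLE_injective h) _ _ ?_ ?_
  · intro i hi
    have : ¬ i.val < n := fun hlt => hi ⟨⟨i.val, hlt⟩, rfl⟩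
    simp [inB, pad, this]
  · intro j
    rw [pad_cast]; simp [inB]

lemma sum_phi {n N : ℕ} (h : n ≤ N) (f : (Fin N → Bool) → ℂ) :
    ∑ z, phi (inB n N) z * f z = ∑ x : Fin n → Bool, ((sg x / 2 ^ n : ℝ) : ℂ) * f (pad N x) := by
  symm
  refine Fintype.sum_of_injective (pad N) (pad_inj h) _ _ ?_ ?_
  · intro z hz
    have : ∃ i : Fin N, ¬ i.val < n ∧ z i = true := by
      by_contra hcon
      push Not at hcon
      apply hz
      refine ⟨fun j => z (Fin.castLE h j), ?_⟩
      ext i; unfold pad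
      by_cases hi : i.val < n
      · simp only [hi, dif_pos]; rfl
      · simp only [hi, dif_neg, not_false_eq_true]
        have := hcon i (not_lt.mp hi); simpa using this
    obtain ⟨i, hi, hz⟩ := this
    have : phi (inB n N) z = 0 := Finset.prod_eq_zero (Finset.mem_univ i) (by simp [inB, hi, hz])
    rw [this, zero_mul]
  · intro x; rw [phi_pad h]

lemma mulVec_input {n N : ℕ} (U : Mat (Fin N)) (x : Fin n → Bool) (z : Fin N → Bool) :
    U.mulVec (input N x) z = U z (pad N x) := by
  simp [Matrix.mulVec, dotProduct, input]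

lemma prob_false {n N : ℕ} {C : List (List (Gate N))} {U : Mat (Fin N)}
    (hU : ∀ ψ, run C ψ = U.mulVec ψ) (out : Fin N) (x : Fin n → Bool) :
    ((prob C out x false : ℝ) : ℂ) = (star U * Dm {out} * U) (pad N x) (pad N x) := by
  unfold prob Dm
  rw [Matrix.mul_apply]; push_cast
  refine Finset.sum_congr rfl fun z _ => ?_
  rw [mul_diagonal, hU, mulVec_input, Matrix.star_apply]
  have : wt {out} z = 0 ↔ z out = false := by rw [wt_eq_zero]; simp
  simp only [this]
  split_ifs
  · rw [mul_one]; push_cast; rw [← Complex.conj_mul']; rfl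
  · simp

lemma prob_add {n N : ℕ} {C : List (List (Gate N))} {U : Mat (Fin N)} (hu : star U * U = 1)
    (hU : ∀ ψ, run C ψ = U.mulVec ψ) (out : Fin N) (x : Fin n → Bool) :
    prob C out x true = 1 - prob C out x false := by
  have h1 : (star U * U) (pad N x) (pad N x) = 1 := by rw [hu, one_apply_eq]
  have h2 : prob C out x true + prob C out x false = ∑ z, ‖U z (pad N x)‖ ^ 2 := by
    unfold prob; rw [← Finset.sum_add_distrib]
    refine Finset.sum_congr rfl fun z _ => ?_
    rw [hU, mulVec_input]; cases z out <;> simp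
  have h3 : ((∑ z, ‖U z (pad N x)‖ ^ 2 : ℝ) : ℂ) = 1 := by
    rw [← h1, Matrix.mul_apply]; push_cast
    refine Finset.sum_congr rfl fun z _ => ?_
    rw [Matrix.star_apply, ← Complex.conj_mul']; rfl
  have h4 : ∑ z, ‖U z (pad N x)‖ ^ 2 = 1 := by exact_mod_cast h3
  linarith

lemma corr_le {n N d s : ℕ} {e : ℝ} (hn : 1 ≤ n) (h : n ≤ N) (hE : EB (Fin N) d s e) (hs : s ≤ n)
    (C : List (List (Gate N))) (hd : C.length ≤ d) (hC : ∀ L ∈ C, IsLayer L) (out : Fin N) :
    |corr n C out| ≤ 2 * e := by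
  obtain ⟨U, hU, hψ⟩ := circ_cls C hC
  have hu : star U * U = 1 := (Unitary.mem_iff.mp hU.unit).1
  have hb := corr_bound hE {out} (inB n N) (hs.trans (card_inB h)) (hU.mono hd)
  rw [sum_phi h] at hb
  simp only [← prob_false hψ] at hb
  have e1 : ∀ x : Fin n → Bool, prob C out x (par x) - prob C out x (!par x) =
      2 * (sg x * prob C out x false) - sg x := by
    intro x
    rw [sg_eq]
    cases hp : par x
    · simp only [Bool.not_false, prob_add hu hψ]; simp; ring
    · simp only [Bool.not_true, prob_add hu hψ]; simp; ring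
  have e2 : corr n C out = 2 * ∑ x : Fin n → Bool, sg x / 2 ^ n * prob C out x false := by
    unfold corr
    simp only [e1]
    rw [Finset.sum_sub_distrib, sum_sg hn, sub_zero, Finset.sum_div, Finset.mul_sum]
    refine Finset.sum_congr rfl fun x _ => by ring
  have e3 : ‖∑ x : Fin n → Bool, ((sg x / 2 ^ n : ℝ) : ℂ) * ((prob C out x false : ℝ) : ℂ)‖ =
      |∑ x : Fin n → Bool, sg x / 2 ^ n * prob C out x false| := by
    rw [← Real.norm_eq_abs, ← Complex.norm_real]; congr 1; push_cast; rfl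
  rw [e3] at hb
  rw [e2, abs_mul, abs_two]; linarith

lemma exists_bad {n N : ℕ} (C : List (List (Gate N))) (hC : ∀ L ∈ C, IsLayer L) (out : Fin N)
    {ε : ℝ} (h : |corr n C out| < 2 * ε) : ∃ x : Fin n → Bool, prob C out x (par x) < 1 / 2 + ε := by
  obtain ⟨U, hU, hψ⟩ := circ_cls C hC
  have hu : star U * U = 1 := (Unitary.mem_iff.mp hU.unit).1
  by_contra hcon
  push Not at hcon
  have e1 : ∀ x : Fin n → Bool, 2 * ε ≤ prob C out x (par x) - prob C out x (!par x) := by
    intro x
    have := hcon x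
    have h2 := prob_add hu hψ out x
    cases hp : par x <;> rw [hp] at this <;> simp only [Bool.not_false, Bool.not_true] <;> linarith
  have e2 : 2 * ε ≤ corr n C out := by
    unfold corr
    rw [le_div_iff₀ (by positivity)]
    have := Finset.sum_le_sum fun x (_ : x ∈ (univ : Finset (Fin n → Bool))) => e1 x
    simp only [Finset.sum_const, Finset.card_univ, Fintype.card_fun, Fintype.card_bool,
      Fintype.card_fin, nsmul_eq_mul] at this
    push_cast at this; linarith
  have := le_abs_self (corr n C out); linarith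

/-- quantitative bound with arbitrary exponent below one -/
theorem corr_small (d c : ℕ) (δ : ℝ) (hδ : 0 < δ) : ∃ n₀ : ℕ, ∀ n ≥ n₀, ∀ N : ℕ, n ≤ N → N ≤ n ^ c →
    ∀ C : List (List (Gate N)), C.length ≤ d → (∀ L ∈ C, IsLayer L) → ∀ out : Fin N,
      |corr n C out| ≤ 2 * Real.exp (-(n:ℝ) ^ (1 - δ)) := by
  -- grid of exponents
  set c' : ℝ := (c:ℝ) + 1 with hc'
  have hc1 : 1 ≤ c' := by rw [hc']; have : (0:ℝ) ≤ c := by positivity
                          linarith
  set η : ℝ := min (δ / (2 * c')) (1 / (3 * c')) with hη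
  have hη0 : 0 < η := lt_min (by positivity) (by positivity)
  have hη1 : 2 * c' * η ≤ δ := by
    have : η ≤ δ / (2 * c') := min_le_left _ _
    rw [le_div_iff₀ (by positivity)] at this; linarith
  have hη2 : 3 * c' * η ≤ 1 := by
    have : η ≤ 1 / (3 * c') := min_le_right _ _
    rw [le_div_iff₀ (by positivity)] at this; linarith
  have hall : ∀ᶠ N : ℕ in atTop, ∀ k ∈ Finset.range (⌈1 / η⌉₊ + 1),
      EB (Fin N) d ⌈(N:ℝ) ^ ((k + 2) * η)⌉₊ (Real.exp (-(N:ℝ) ^ ((k + 1) * η))) := by
    rw [Filter.eventually_all_finset]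
    intro k _
    exact St_all d _ _ (by positivity) (by nlinarith)
  obtain ⟨N0, hN0⟩ := Filter.eventually_atTop.mp hall
  refine ⟨max N0 2, fun n hn N hnN hNc C hd hC out => ?_⟩
  have hn2 : 2 ≤ n := le_trans (le_max_right _ _) hn
  have hnR : (2:ℝ) ≤ n := by exact_mod_cast hn2
  have hNR : (n:ℝ) ≤ N := by exact_mod_cast hnN
  have hN0' : (0:ℝ) < N := by linarith
  have hn0' : (0:ℝ) < n := by linarith
  have hln : 0 < Real.log n := Real.log_pos (by linarith)
  have hlN : Real.log n ≤ Real.log N := Real.log_le_log hn0' hNR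
  have hlN2 : Real.log N ≤ c' * Real.log n := by
    have h1 : (N:ℝ) ≤ (n:ℝ) ^ c := by exact_mod_cast hNc
    have h2 := Real.log_le_log hN0' h1
    rw [Real.log_pow] at h2; rw [hc']; nlinarith
  have hlN0 : 0 < Real.log N := by linarith
  set β := Real.log n / (η * Real.log N) with hβ
  have hβ3 : 3 ≤ β := by
    rw [hβ, le_div_iff₀ (by positivity)]; nlinarith
  have hβ1 : β ≤ 1 / η := by
    rw [hβ, div_le_div_iff₀ (by positivity) hη0]; nlinarith
  have hβe : β * (η * Real.log N) = Real.log n := by rw [hβ]; field_simp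
  obtain ⟨k, hk⟩ : ∃ k : ℕ, ⌊β⌋₊ = k + 2 := by
    have : 2 ≤ ⌊β⌋₊ := Nat.le_floor (by push_cast; linarith)
    exact ⟨⌊β⌋₊ - 2, by omega⟩
  have k1 : (k:ℝ) + 2 ≤ β := by
    have := Nat.floor_le (by linarith : 0 ≤ β); rw [hk] at this; push_cast at this; exact this
  have k2 : β < (k:ℝ) + 3 := by
    have := Nat.lt_floor_add_one β; rw [hk] at this; push_cast at this; linarith
  have hkr : k ∈ Finset.range (⌈1 / η⌉₊ + 1) := by
    rw [Finset.mem_range]
    have := Nat.le_ceil (1 / η)
    have : (k:ℝ) < ⌈1 / η⌉₊ + 1 := by linarith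
    exact_mod_cast this
  have hE := hN0 N (le_trans (le_trans (le_max_left _ _) hn) hnN) k hkr
  have hpos : 0 < η * Real.log N := by positivity
  refine (corr_le (by omega) hnN hE ?_ C hd hC out).trans ?_
  · refine Nat.ceil_le.mpr ?_
    rw [Real.rpow_def_of_pos hN0']
    calc _ ≤ Real.exp (Real.log n) := by apply Real.exp_le_exp.mpr; nlinarith
      _ = n := Real.exp_log hn0'
  · gcongr
    rw [Real.rpow_def_of_pos hN0', Real.rpow_def_of_pos hn0']
    apply Real.exp_le_exp.mpr
    have a1 : η * Real.log N ≤ η * (c' * Real.log n) := by gcongr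
    have a2 : 2 * c' * η * Real.log n ≤ δ * Real.log n := by gcongr
    nlinarith

theorem no_adv (d c : ℕ) (ε : ℝ) (hε : 0 < ε) : ∃ n₀ : ℕ, ∀ n ≥ n₀, ∀ N : ℕ, n ≤ N → N ≤ n ^ c →
    ∀ C : List (List (Gate N)), C.length ≤ d → (∀ L ∈ C, IsLayer L) → ∀ out : Fin N,
      ∃ x : Fin n → Bool, prob C out x (par x) < 1 / 2 + ε := by
  obtain ⟨n0, h0⟩ := corr_small d c (1 / 2) (by norm_num)
  have ht : Tendsto (fun n : ℕ => Real.exp (-(n:ℝ) ^ (1 - 1 / 2 : ℝ))) atTop (nhds 0) :=
    Real.tendsto_exp_neg_atTop_nhds_zero.comp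
      ((tendsto_rpow_atTop (by norm_num)).comp tendsto_natCast_atTop_atTop)
  obtain ⟨n1, h1⟩ := Filter.eventually_atTop.mp (ht.eventually (gt_mem_nhds hε))
  refine ⟨max n0 n1, fun n hn N a b C hd hC out => exists_bad C hC out ?_⟩
  have := h0 n (le_trans (le_max_left _ _) hn) N a b C hd hC out
  have := h1 n (le_trans (le_max_right _ _) hn)
  linarith

lemma poly_le (p : Polynomial ℕ) : ∃ c : ℕ, ∀ n ≥ 2, p.eval n ≤ n ^ c := by
  induction p using Polynomial.induction_on' with
  | add p q hp hq =>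
    obtain ⟨a, ha⟩ := hp; obtain ⟨b, hb⟩ := hq
    refine ⟨max a b + 1, fun n hn => ?_⟩
    rw [Polynomial.eval_add, pow_succ]
    have h1 : n ^ a ≤ n ^ max a b := Nat.pow_le_pow_right (by omega) (le_max_left _ _)
    have h2 : n ^ b ≤ n ^ max a b := Nat.pow_le_pow_right (by omega) (le_max_right _ _)
    have := ha n hn; have := hb n hn
    nlinarith
  | monomial k a =>
    refine ⟨a + k, fun n hn => ?_⟩
    rw [Polynomial.eval_monomial, pow_add]
    have : a ≤ n ^ a := (Nat.lt_pow_self (by omega)).le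
    exact Nat.mul_le_mul_right _ this

end Vale.Agent.P368
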