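import Mathlib

namespace Vale.Agent.P368

open Matrix Finset
open scoped Matrix.Norms.L2Operator

set_option linter.unusedSectionVars false

variable {ι : Type} [Fintype ι] [DecidableEq ι]

abbrev Mat (ι : Type) := Matrix (ι → Bool) (ι → Bool) ℂ
abbrev M2 := Matrix Bool Bool ℂ

noncomputable def prodM (M : ι → M2) : Mat ι := Matrix.of fun x y => ∏ i, M i (x i) (y i)

lemma prodM_apply (M : ι → M2) (x y : ι → Bool) : prodM M x y = ∏ i, M i (x i) (y i) := rfl

lemma prodM_mul (M M' : ι → M2) : prodM M * prodM M' = prodM (fun i => M i * M' i) := by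
  ext x y
  simp only [Matrix.mul_apply, prodM_apply]
  rw [Finset.prod_univ_sum]
  simp only [Fintype.piFinset_univ, Finset.prod_mul_distrib]

lemma prodM_diag (d : ι → Bool → ℂ) :
    prodM (fun i => diagonal (d i)) = diagonal (fun x : ι → Bool => ∏ i, d i (x i)) := by
  ext x y
  rw [prodM_apply]
  by_cases h : x = y
  · subst h; simp
  · rw [diagonal_apply_ne _ h]
    obtain ⟨i, hi⟩ := Function.ne_iff.mp h
    exact Finset.prod_eq_zero (Finset.mem_univ i) (diagonal_apply_ne _ hi)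

lemma prodM_one : prodM (fun _ : ι => (1 : M2)) = 1 := by
  have := prodM_diag (ι := ι) (fun _ _ => 1)
  simpa using this

lemma star_prodM (M : ι → M2) : star (prodM M) = prodM (fun i => star (M i)) := by
  ext x y
  simp [prodM_apply, Matrix.star_apply]

lemma prodM_unitary {w : ι → M2} (hw : ∀ i, w i ∈ unitary M2) : prodM w ∈ unitary (Mat ι) := by
  rw [Unitary.mem_iff]
  constructor
  · rw [star_prodM, prodM_mul, ← prodM_one]
    congr 1; ext1 i; exact (Unitary.mem_iff.mp (hw i)).1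
  · rw [star_prodM, prodM_mul, ← prodM_one]
    congr 1; ext1 i; exact (Unitary.mem_iff.mp (hw i)).2

lemma prodM_update (M : ι → M2) (i : ι) (m : M2) (x y : ι → Bool) :
    prodM (Function.update M i m) x y = m (x i) (y i) * ∏ j ∈ univ.erase i, M j (x j) (y j) := by
  rw [prodM_apply, ← Finset.mul_prod_erase _ _ (Finset.mem_univ i)]
  simp only [Function.update_self]
  congr 1
  refine Finset.prod_congr rfl fun j hj => ?_
  rw [Function.update_of_ne (Finset.ne_of_mem_erase hj)]

/-- indicator that all bits in `S` are one -/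
noncomputable def hf (S : Finset ι) (x : ι → Bool) : ℂ := if ∀ i ∈ S, x i = true then 1 else 0

lemma hf_mul (S S' : Finset ι) (x : ι → Bool) : hf S x * hf S' x = hf (S ∪ S') x := by
  unfold hf
  by_cases h1 : ∀ i ∈ S, x i = true <;> by_cases h2 : ∀ i ∈ S', x i = true
  · rw [if_pos h1, if_pos h2, if_pos]; · simp
    intro i hi; rcases Finset.mem_union.mp hi with h | h
    exacts [h1 i h, h2 i h]
  · rw [if_pos h1, if_neg h2, if_neg]; · simp
    intro h; exact h2 fun i hi => h i (Finset.mem_union_right _ hi)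
  · rw [if_neg h1, if_neg (c := ∀ i ∈ S ∪ S', x i = true)]; · simp
    intro h; exact h1 fun i hi => h i (Finset.mem_union_left _ hi)
  · rw [if_neg h1, if_neg (c := ∀ i ∈ S ∪ S', x i = true)]; · simp
    intro h; exact h1 fun i hi => h i (Finset.mem_union_left _ hi)

noncomputable def Hm (S : Finset ι) : Mat ι := diagonal (hf S)

lemma Hm_mul (S S' : Finset ι) : Hm S * Hm S' = Hm (S ∪ S') := by
  unfold Hm; rw [diagonal_mul_diagonal]; congr 1; ext x; exact hf_mul _ _ _

/-- projector onto bit one -/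
noncomputable def p1 : M2 := diagonal (fun b => if b = true then 1 else 0)
/-- projector onto bit zero -/
noncomputable def p0 : M2 := diagonal (fun b => if b = true then 0 else 1)

lemma Hm_eq_prodM (S : Finset ι) : Hm S = prodM (fun i => if i ∈ S then p1 else 1) := by
  have := prodM_diag (ι := ι) (fun i b => if i ∈ S then (if b = true then 1 else 0) else 1)
  have h2 : (fun i => if i ∈ S then p1 else (1 : M2)) =
      fun i => diagonal (fun b => if i ∈ S then (if b = true then (1:ℂ) else 0) else 1) := by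
    ext1 i; by_cases h : i ∈ S <;> simp [h, p1]
  rw [h2, this]; unfold Hm; congr 1; ext x
  unfold hf
  by_cases h : ∀ i ∈ S, x i = true
  · rw [if_pos h]; symm; refine Finset.prod_eq_one fun i _ => ?_
    by_cases hi : i ∈ S
    · simp [hi, h i hi]
    · simp [hi]
  · rw [if_neg h]; push Not at h; obtain ⟨i, hi, hx⟩ := h
    symm; refine Finset.prod_eq_zero (Finset.mem_univ i) ?_
    simp [hi, hx]

/-- Hamming weight on `A` -/
def wt (A : Finset ι) (x : ι → Bool) : ℕ := (A.filter (fun i => x i = true)).card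

noncomputable def Dm (A : Finset ι) : Mat ι := diagonal (fun x => if wt A x = 0 then 1 else 0)
noncomputable def Fm (A : Finset ι) (s : ℕ) : Mat ι :=
  diagonal (fun x => if s ≤ wt A x then 1 else 0)

lemma wt_eq_zero {A : Finset ι} {x : ι → Bool} : wt A x = 0 ↔ ∀ i ∈ A, x i = false := by
  simp [wt, Finset.filter_eq_empty_iff]

lemma Dm_eq_prodM (S : Finset ι) : Dm S = prodM (fun i => if i ∈ S then p0 else 1) := by
  have := prodM_diag (ι := ι) (fun i b => if i ∈ S then (if b = true then 0 else 1) else 1)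
  have h2 : (fun i => if i ∈ S then p0 else (1 : M2)) =
      fun i => diagonal (fun b => if i ∈ S then (if b = true then (0:ℂ) else 1) else 1) := by
    ext1 i; by_cases h : i ∈ S <;> simp [h, p0]
  rw [h2, this]; unfold Dm; congr 1; ext x
  by_cases h : wt S x = 0
  · rw [if_pos h]; symm; refine Finset.prod_eq_one fun i _ => ?_
    by_cases hi : i ∈ S
    · simp [hi, wt_eq_zero.mp h i hi]
    · simp [hi]
  · rw [if_neg h]; rw [wt_eq_zero] at h; push Not at h; obtain ⟨i, hi, hx⟩ := h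
    symm; refine Finset.prod_eq_zero (Finset.mem_univ i) ?_
    simp at hx
    simp [hi, hx]

lemma norm_diag_le {v : (ι → Bool) → ℂ} {r : ℝ} (hr : 0 ≤ r) (h : ∀ x, ‖v x‖ ≤ r) :
    ‖(diagonal v : Mat ι)‖ ≤ r := by
  rw [l2_opNorm_diagonal]; exact (pi_norm_le_iff_of_nonneg hr).mpr h

lemma norm_Dm_le (A : Finset ι) : ‖Dm A‖ ≤ 1 :=
  norm_diag_le zero_le_one fun x => by split_ifs <;> simp
lemma norm_Fm_le (A : Finset ι) (s : ℕ) : ‖Fm A s‖ ≤ 1 :=
  norm_diag_le zero_le_one fun x => by split_ifs <;> simp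
lemma norm_Hm_le (A : Finset ι) : ‖Hm A‖ ≤ 1 :=
  norm_diag_le zero_le_one fun x => by unfold hf; split_ifs <;> simp

lemma star_Dm (A : Finset ι) : star (Dm A) = Dm A := by
  unfold Dm; rw [star_eq_conjTranspose, diagonal_conjTranspose]; congr 1; ext x
  simp only [Pi.star_apply]; split_ifs <;> simp
lemma star_Fm (A : Finset ι) (s : ℕ) : star (Fm A s) = Fm A s := by
  unfold Fm; rw [star_eq_conjTranspose, diagonal_conjTranspose]; congr 1; ext x
  simp only [Pi.star_apply]; split_ifs <;> simp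
lemma Dm_mul_Dm (A : Finset ι) : Dm A * Dm A = Dm A := by
  unfold Dm; rw [diagonal_mul_diagonal]; congr 1; ext x; split_ifs <;> simp

/-- phase function of a set of generalized controlled-Z gates -/
noncomputable def lf (T : Finset (Finset ι)) (x : ι → Bool) : ℂ := ∏ g ∈ T, (1 - 2 * hf g x)

noncomputable def Lm (T : Finset (Finset ι)) : Mat ι := diagonal (lf T)

lemma lf_sq (T : Finset (Finset ι)) (x : ι → Bool) : lf T x * lf T x = 1 := by
  unfold lf; rw [← Finset.prod_mul_distrib]; refine Finset.prod_eq_one fun g _ => ?_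
  unfold hf; split_ifs <;> norm_num

lemma star_lf (T : Finset (Finset ι)) (x : ι → Bool) : star (lf T x) = lf T x := by
  unfold lf; rw [star_prod]; refine Finset.prod_congr rfl fun g _ => ?_
  unfold hf; split_ifs <;> simp

lemma star_Lm (T : Finset (Finset ι)) : star (Lm T) = Lm T := by
  unfold Lm; rw [star_eq_conjTranspose, diagonal_conjTranspose]; congr 1; ext x
  exact star_lf T x

lemma Lm_mul_self (T : Finset (Finset ι)) : Lm T * Lm T = 1 := by
  unfold Lm; rw [diagonal_mul_diagonal, ← diagonal_one]; congr 1; ext x; exact lf_sq T x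

lemma Lm_unitary (T : Finset (Finset ι)) : Lm T ∈ unitary (Mat ι) := by
  rw [Unitary.mem_iff, star_Lm]; exact ⟨Lm_mul_self T, Lm_mul_self T⟩

lemma Lm_empty : Lm (∅ : Finset (Finset ι)) = 1 := by
  unfold Lm; rw [← diagonal_one]; congr 1

lemma Lm_insert {T : Finset (Finset ι)} {g : Finset ι} (hg : g ∉ T) :
    Lm (insert g T) = Lm T - (2:ℂ) • (Hm g * Lm T) := by
  unfold Lm Hm; rw [diagonal_mul_diagonal, ← diagonal_smul, diagonal_sub]; congr 1; ext x
  unfold lf; rw [Finset.prod_insert hg]; simp only [Pi.smul_apply, smul_eq_mul]; ring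

lemma Lm_union {T T' : Finset (Finset ι)} (h : Disjoint T T') : Lm (T ∪ T') = Lm T * Lm T' := by
  unfold Lm; rw [diagonal_mul_diagonal]; congr 1; ext x
  unfold lf; rw [Finset.prod_union h]

lemma Hm_comm_Lm (S : Finset ι) (T : Finset (Finset ι)) : Hm S * Lm T = Lm T * Hm S := by
  unfold Lm Hm; rw [diagonal_mul_diagonal, diagonal_mul_diagonal]; congr 1; ext x; ring

/-- expansion of a controlled-Z layer -/
lemma norm_Lm_expand (T : Finset (Finset ι)) (C : ℝ) : ∀ (X Y : Mat ι),
    (∀ S, ‖X * Hm S * Y‖ ≤ C) → ‖X * Lm T * Y‖ ≤ 3 ^ T.card * C := by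
  induction T using Finset.induction_on with
  | empty =>
    intro X Y h
    have h0 := h ∅
    have : Hm (∅ : Finset ι) = 1 := by
      unfold Hm; rw [← diagonal_one]; congr 1; ext x; simp [hf]
    rw [this] at h0
    rw [Lm_empty]; simpa using h0
  | insert g T hg ih =>
    intro X Y h
    have h1 := ih X Y h
    have h2 := ih (X * Hm g) Y (fun S => by rw [mul_assoc X, Hm_mul]; exact h _)
    rw [Lm_insert hg, Finset.card_insert_of_notMem hg, mul_sub, sub_mul, mul_smul_comm,
      smul_mul_assoc, ← mul_assoc X]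
    calc _ ≤ ‖X * Lm T * Y‖ + ‖(2:ℂ) • (X * Hm g * Lm T * Y)‖ := norm_sub_le _ _
      _ = ‖X * Lm T * Y‖ + 2 * ‖X * Hm g * Lm T * Y‖ := by rw [norm_smul]; simp
      _ ≤ _ := by rw [pow_succ]; linarith

/-- an operator commutes with a diagonal that does not see its support -/
lemma prodM_comm_diag (M : ι → M2) (S : Finset ι) (hM : ∀ i ∉ S, M i = 1) (f : (ι → Bool) → ℂ)
    (hf : ∀ x y : ι → Bool, (∀ i ∉ S, x i = y i) → f x = f y) :
    diagonal f * prodM M = prodM M * diagonal f := by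
  ext x y
  rw [diagonal_mul, mul_diagonal]
  by_cases h : ∀ i ∉ S, x i = y i
  · rw [hf x y h]; ring
  · push Not at h; obtain ⟨i, hi, hxy⟩ := h
    have : prodM M x y = 0 := by
      rw [prodM_apply]; refine Finset.prod_eq_zero (Finset.mem_univ i) ?_
      rw [hM i hi, one_apply_ne hxy]
    rw [this]; simp

lemma lf_indep (T : Finset (Finset ι)) (S : Finset ι) (hT : ∀ g ∈ T, Disjoint g S)
    (x y : ι → Bool) (h : ∀ i ∉ S, x i = y i) : lf T x = lf T y := by
  unfold lf; refine Finset.prod_congr rfl fun g hg => ?_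
  have : (∀ i ∈ g, x i = true) ↔ (∀ i ∈ g, y i = true) := by
    refine forall₂_congr fun i hi => ?_
    rw [h i (Finset.disjoint_left.mp (hT g hg) hi)]
  unfold hf; simp only [this]

def PD (T : Finset (Finset ι)) : Prop := ∀ g ∈ T, ∀ g' ∈ T, g ≠ g' → Disjoint g g'

/-- unitaries with `d` entangling layers -/
def Cls : ℕ → Mat ι → Prop
  | 0, U => ∃ w : ι → M2, (∀ i, w i ∈ unitary M2) ∧ U = prodM w
  | d + 1, U => ∃ (U' : Mat ι) (T : Finset (Finset ι)) (w : ι → M2),
      Cls d U' ∧ PD T ∧ (∀ i, w i ∈ unitary M2) ∧ U = U' * Lm T * prodM w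

lemma Cls.unit : ∀ {d : ℕ} {U : Mat ι}, Cls d U → U ∈ unitary (Mat ι)
  | 0, _, ⟨_, hw, h⟩ => h ▸ prodM_unitary hw
  | _ + 1, _, ⟨_, T, _, hU, _, hw, h⟩ =>
      h ▸ mul_mem (mul_mem hU.unit (Lm_unitary T)) (prodM_unitary hw)

lemma Cls.mul_right : ∀ {d : ℕ} {U : Mat ι} {v : ι → M2}, Cls d U → (∀ i, v i ∈ unitary M2) →
    Cls d (U * prodM v)
  | 0, _, v, ⟨w, hw, h⟩, hv => ⟨fun i => w i * v i, fun i => mul_mem (hw i) (hv i), by
      rw [h, prodM_mul]⟩
  | _ + 1, _, v, ⟨U', T, w, hU, hT, hw, h⟩, hv =>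
      ⟨U', T, fun i => w i * v i, hU, hT, fun i => mul_mem (hw i) (hv i), by
        rw [h, mul_assoc, prodM_mul]⟩

lemma Cls.mul_left : ∀ {d : ℕ} {U : Mat ι} {v : ι → M2}, Cls d U → (∀ i, v i ∈ unitary M2) →
    Cls d (prodM v * U)
  | 0, _, v, ⟨w, hw, h⟩, hv => ⟨fun i => v i * w i, fun i => mul_mem (hv i) (hw i), by
      rw [h, prodM_mul]⟩
  | _ + 1, _, v, ⟨U', T, w, hU, hT, hw, h⟩, hv =>
      ⟨prodM v * U', T, w, hU.mul_left hv, hT, hw, by rw [h]; simp only [mul_assoc]⟩

lemma Cls.step_left : ∀ {d : ℕ} {U : Mat ι} {v : ι → M2} {T : Finset (Finset ι)}, Cls d U →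
    (∀ i, v i ∈ unitary M2) → PD T → Cls (d + 1) (prodM v * Lm T * U)
  | 0, _, v, T, ⟨w, hw, h⟩, hv, hT => ⟨prodM v, T, w, ⟨v, hv, rfl⟩, hT, hw, by rw [h]⟩
  | _ + 1, _, v, T, ⟨U', T', w, hU, hT', hw, h⟩, hv, hT =>
      ⟨prodM v * Lm T * U', T', w, hU.step_left hv hT, hT', hw, by
        rw [h]; simp only [mul_assoc]⟩

lemma Cls.adj : ∀ {d : ℕ} {U : Mat ι}, Cls d U → Cls d (star U)
  | 0, _, ⟨w, hw, h⟩ => ⟨fun i => star (w i), fun i => Unitary.star_mem (hw i), by
      rw [h, star_prodM]⟩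
  | _ + 1, _, ⟨U', T, w, hU, hT, hw, h⟩ => by
      rw [h, star_mul, star_mul, star_prodM, star_Lm, ← mul_assoc]
      exact hU.adj.step_left (fun i => Unitary.star_mem (hw i)) hT

lemma Cls.succ {d : ℕ} {U : Mat ι} (h : Cls d U) : Cls (d + 1) U :=
  ⟨U, ∅, fun _ => 1, h, fun _ hg => absurd hg (Finset.notMem_empty _), fun _ => one_mem _, by
    rw [Lm_empty, prodM_one, mul_one, mul_one]⟩

lemma Cls.mono {d d' : ℕ} {U : Mat ι} (h : Cls d U) (hd : d ≤ d') : Cls d' U := by
  induction hd with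
  | refl => exact h
  | step _ ih => exact ih.succ

lemma Cls.one (d : ℕ) : Cls d (1 : Mat ι) :=
  Cls.mono (d := 0) ⟨fun _ => 1, fun _ => one_mem _, prodM_one.symm⟩ (Nat.zero_le d)

end Vale.Agent.P368
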