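import Vale.Agent.P368.Rec

namespace Vale.Agent.P368

open Finset Polynomial

lemma approx_of_poly (P : ℝ[X]) (m s' : ℕ) (τ : ℝ) (hdeg : P.natDegree ≤ m) (hm : m ≤ s')
    (hτ : τ ≤ 1) (h0 : P.eval 0 = 1) (h : ∀ j : ℕ, 1 ≤ j → j ≤ s' → |P.eval (j : ℝ)| ≤ τ) :
    Approx m s' τ := by
  have hz : ∀ k, m < k → (fwdDiff (1:ℝ))^[k] P.eval 0 = 0 := by
    intro k hk
    rw [Polynomial.fwdDiff_iter_eq_zero_of_degree_lt (lt_of_le_of_lt hdeg hk)]; rfl
  refine ⟨fun k => (fwdDiff (1:ℝ))^[k] P.eval 0, fun k => ?_, hz, by simpa using h0, ?_⟩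
  · by_cases hk : m < k
    · simp only [hz k hk]; simp
    · simp only [fwdDiff_iter_eq_sum_shift]
      refine (Finset.abs_sum_le_sum_abs _ _).trans ?_
      have : (2:ℝ) ^ k = ∑ j ∈ range (k + 1), (k.choose j : ℝ) := by
        exact_mod_cast (Nat.sum_range_choose k).symm
      rw [this]
      refine Finset.sum_le_sum fun j hj => ?_
      have hj' : j ≤ s' := by have := Finset.mem_range.mp hj; omega
      have hb : |P.eval (j:ℝ)| ≤ 1 := by
        rcases Nat.eq_zero_or_pos j with rfl | hj0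
        · simp [h0]
        · exact (h j hj0 hj').trans hτ
      rw [zsmul_eq_mul, abs_mul]
      simp only [zero_add, nsmul_eq_mul, mul_one]
      push_cast
      rw [abs_mul, abs_pow, abs_neg, abs_one, one_pow, one_mul, Nat.abs_cast]
      exact mul_le_of_le_one_right (by positivity) hb
  · intro j h1 h2
    have := shift_eq_sum_fwdDiff_iter (1:ℝ) P.eval j 0
    simp only [zero_add, nsmul_eq_mul, mul_one] at this
    rw [← this]; exact h j h1 h2

lemma cosh_sub_one_le {θ : ℝ} (h0 : 0 ≤ θ) (h1 : θ ≤ 1) : Real.cosh θ - 1 ≤ θ ^ 2 := by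
  have h2 := Real.cosh_le_exp_half_sq θ
  have hy0 : 0 ≤ θ ^ 2 / 2 := by positivity
  have hy1 : θ ^ 2 / 2 ≤ 1 / 2 := by nlinarith
  have h3 := Real.exp_bound_div_one_sub_of_interval hy0 (by linarith)
  have h4 : 1 / (1 - θ ^ 2 / 2) ≤ 1 + θ ^ 2 := by
    rw [div_le_iff₀ (by linarith)]; nlinarith
  linarith

lemma exists_poly (t u s' : ℕ) (θ : ℝ) (ht : 1 ≤ t) (hθ0 : 0 ≤ θ) (hθ1 : θ ≤ 1)
    (hs : θ ^ 2 * s' ≤ t) : ∃ P : ℝ[X], P.natDegree ≤ t + u ∧ P.eval 0 = 1 ∧
      ∀ j : ℕ, 1 ≤ j → j ≤ s' → |P.eval (j : ℝ)| ≤ 2 * (s' : ℝ) ^ t * Real.exp (-(u * θ)) := by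
  set κ : ℝ := (Real.cosh θ - 1) / t with hκ
  have ht0 : (0:ℝ) < t := by exact_mod_cast ht
  set z : ℝ[X] := C (Real.cosh θ) - C κ * X with hz
  set A : ℝ[X] := ∏ i ∈ range t, (1 - C (1 / ((i:ℝ) + 1)) * X) with hA
  set B : ℝ[X] := (Chebyshev.T ℝ (u:ℤ)).comp z with hB
  have hc : 0 < Real.cosh (u * θ) := Real.cosh_pos _
  refine ⟨C (1 / Real.cosh (u * θ)) * (A * B), ?_, ?_, ?_⟩
  · refine (natDegree_C_mul_le _ _).trans (natDegree_mul_le.trans (add_le_add ?_ ?_))
    · refine (natDegree_prod_le _ _).trans ?_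
      calc _ ≤ ∑ _i ∈ range t, 1 := Finset.sum_le_sum fun i _ => by
              refine (natDegree_sub_le _ _).trans (max_le (by simp) ?_)
              exact (natDegree_C_mul_le _ _).trans natDegree_X_le
        _ = t := by simp
    · refine natDegree_comp_le.trans ?_
      rw [Chebyshev.natDegree_T]
      have : z.natDegree ≤ 1 := by
        refine (natDegree_sub_le _ _).trans (max_le (by simp) ?_)
        exact (natDegree_C_mul_le _ _).trans natDegree_X_le
      simp only [Int.natAbs_natCast]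
      calc u * z.natDegree ≤ u * 1 := Nat.mul_le_mul_left _ this
        _ = u := mul_one u
  · simp only [hA, hB, hz, eval_mul, eval_C, eval_prod, eval_sub, eval_one, eval_X, eval_comp,
      mul_zero, sub_zero, Finset.prod_const_one, one_mul]
    rw [Chebyshev.T_real_cosh]
    push_cast; field_simp
  · intro j h1 h2
    have hA' : A.eval (j:ℝ) = ∏ i ∈ range t, (1 - 1 / ((i:ℝ) + 1) * j) := by
      simp only [hA, eval_prod, eval_sub, eval_one, eval_mul, eval_C, eval_X]
    rw [eval_mul, eval_mul, eval_C]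
    by_cases hj : j ≤ t
    · have : A.eval (j:ℝ) = 0 := by
        rw [hA']
        refine Finset.prod_eq_zero (i := j - 1) (Finset.mem_range.mpr (by omega)) ?_
        have : ((j - 1 : ℕ) : ℝ) + 1 = j := by
          rw [Nat.cast_sub h1]; simp
        rw [this]
        have : (j:ℝ) ≠ 0 := by positivity
        field_simp; ring
      rw [this]; simp; positivity
    · have hjt : (t:ℝ) ≤ j := by exact_mod_cast (not_le.mp hj).le
      have hjs : (j:ℝ) ≤ s' := by exact_mod_cast h2
      have hAb : |A.eval (j:ℝ)| ≤ (s':ℝ) ^ t := by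
        rw [hA', Finset.abs_prod]
        calc _ ≤ ∏ _i ∈ range t, (s':ℝ) := by
              refine Finset.prod_le_prod (fun _ _ => abs_nonneg _) fun i hi => ?_
              have hi1 : (i:ℝ) + 1 ≤ j := by
                have : i + 1 ≤ t := Finset.mem_range.mp hi
                have : (i:ℝ) + 1 ≤ t := by exact_mod_cast this
                linarith
              have hi0 : (1:ℝ) ≤ (i:ℝ) + 1 := by
                have : (0:ℝ) ≤ i := by positivity
                linarith
              have e1 : 1 ≤ 1 / ((i:ℝ) + 1) * j := by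
                rw [one_div, inv_mul_eq_div, le_div_iff₀ (by linarith)]; linarith
              have e2 : 1 / ((i:ℝ) + 1) * j ≤ j := by
                refine mul_le_of_le_one_left (by positivity) ?_
                rw [div_le_one (by linarith)]; exact hi0
              rw [abs_le]; constructor <;> linarith
          _ = _ := by simp
      have hch1 : 1 ≤ Real.cosh θ := Real.one_le_cosh θ
      have hch2 := cosh_sub_one_le hθ0 hθ1
      have hκ0 : 0 ≤ κ := div_nonneg (by linarith) ht0.le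
      have hκt : κ * t = Real.cosh θ - 1 := by rw [hκ]; field_simp
      have hκs : κ * s' ≤ 1 := by
        rw [hκ, div_mul_eq_mul_div, div_le_one ht0]
        have : (0:ℝ) ≤ s' := by positivity
        nlinarith
      have hBb : |B.eval (j:ℝ)| ≤ 1 := by
        rw [hB, eval_comp]
        apply Chebyshev.abs_eval_T_real_le_one
        simp only [hz, eval_sub, eval_mul, eval_C, eval_X]
        have a1 : κ * t ≤ κ * j := mul_le_mul_of_nonneg_left hjt hκ0
        have a2 : κ * j ≤ κ * s' := mul_le_mul_of_nonneg_left hjs hκ0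
        rw [abs_le]; constructor <;> linarith
      have hC : 1 / Real.cosh (u * θ) ≤ 2 * Real.exp (-(u * θ)) := by
        rw [div_le_iff₀ hc, Real.cosh_eq]
        have e1 : Real.exp (-(u * θ)) * Real.exp (u * θ) = 1 := by
          rw [← Real.exp_add]; simp
        have e2 : 0 < Real.exp (-(u * θ)) := Real.exp_pos _
        nlinarith
      rw [abs_mul, abs_mul, abs_of_pos (one_div_pos.mpr hc)]
      calc _ ≤ (2 * Real.exp (-(u * θ))) * ((s':ℝ) ^ t * 1) := by gcongr
        _ = _ := by ring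

lemma approx_cheb (t u s' : ℕ) (θ : ℝ) (ht : 1 ≤ t) (hθ0 : 0 ≤ θ) (hθ1 : θ ≤ 1)
    (hs : θ ^ 2 * s' ≤ t) (hm : t + u ≤ s') {τ : ℝ}
    (hτ : 2 * (s' : ℝ) ^ t * Real.exp (-(u * θ)) ≤ τ) (hτ1 : τ ≤ 1) : Approx (t + u) s' τ := by
  obtain ⟨P, h1, h2, h3⟩ := exists_poly t u s' θ ht hθ0 hθ1 hs
  exact approx_of_poly P _ _ _ h1 hm hτ1 h2 fun j a b => (h3 j a b).trans hτ

end Vale.Agent.P368
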