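import Vale.Agent.P368.Ops

namespace Vale.Agent.P368

open Matrix Finset
open scoped Matrix.Norms.L2Operator

set_option linter.unusedSectionVars false

variable {ι : Type} [Fintype ι] [DecidableEq ι]

def Basic (m : M2) : Prop := m = 1 ∨ ∃ w ∈ unitary M2, m = w * p0 * star w

noncomputable def mk2 (a b c d : ℂ) : M2 :=
  Matrix.of fun i j => if i = true then (if j = true then d else c) else (if j = true then b else a)

lemma mk2_eta (m : M2) : m = mk2 (m false false) (m false true) (m true false) (m true true) := by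
  ext i j; cases i <;> cases j <;> simp [mk2]

lemma mk2_mul (a b c d a' b' c' d' : ℂ) : mk2 a b c d * mk2 a' b' c' d' =
    mk2 (a * a' + b * c') (a * b' + b * d') (c * a' + d * c') (c * b' + d * d') := by
  ext i j; cases i <;> cases j <;> simp [mk2, Matrix.mul_apply] <;> ring

lemma mk2_star (a b c d : ℂ) : star (mk2 a b c d) = mk2 (star a) (star c) (star b) (star d) := by
  ext i j; cases i <;> cases j <;> simp [mk2, Matrix.star_apply]

lemma mk2_one : (1 : M2) = mk2 1 0 0 1 := by
  ext i j; cases i <;> cases j <;> simp [mk2]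

lemma p0_eq : p0 = mk2 1 0 0 0 := by
  ext i j; cases i <;> cases j <;> simp [mk2, p0]
lemma p1_eq : p1 = mk2 0 0 0 1 := by
  ext i j; cases i <;> cases j <;> simp [mk2, p1]

lemma mk2_congr {a b c d a' b' c' d' : ℂ} (h1 : a = a') (h2 : b = b') (h3 : c = c') (h4 : d = d') :
    mk2 a b c d = mk2 a' b' c' d' := by rw [h1, h2, h3, h4]

lemma basic_p0 : Basic p0 := Or.inr ⟨1, one_mem _, by simp⟩

lemma basic_p1 : Basic p1 := by
  refine Or.inr ⟨mk2 0 1 1 0, ?_, ?_⟩
  · rw [Unitary.mem_iff, mk2_star, mk2_mul, mk2_mul, mk2_one]; simp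
  · rw [p0_eq, p1_eq, mk2_star, mk2_mul, mk2_mul]; simp

noncomputable def p3 : M2 := mk2 (9/25) (12/25) (12/25) (16/25)
noncomputable def p4 : M2 := mk2 (9/25) (-(12/25) * Complex.I) (12/25 * Complex.I) (16/25)

lemma basic_p3 : Basic p3 := by
  refine Or.inr ⟨mk2 (3/5) (-(4/5)) (4/5) (3/5), ?_, ?_⟩
  · rw [Unitary.mem_iff, mk2_star, mk2_mul, mk2_mul, mk2_one]
    constructor <;> refine mk2_congr ?_ ?_ ?_ ?_ <;> simp <;> norm_num
  · rw [p0_eq, p3, mk2_star, mk2_mul, mk2_mul]
    refine mk2_congr ?_ ?_ ?_ ?_ <;> simp <;> norm_num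

lemma basic_p4 : Basic p4 := by
  have hI : Complex.I * Complex.I = -1 := Complex.I_mul_I
  refine Or.inr ⟨mk2 (3/5) (4/5 * Complex.I) (4/5 * Complex.I) (3/5), ?_, ?_⟩
  · rw [Unitary.mem_iff, mk2_star, mk2_mul, mk2_mul, mk2_one]
    constructor <;> refine mk2_congr ?_ ?_ ?_ ?_ <;> simp <;> first | ring1 | linear_combination (-16/25) * hI
  · rw [p0_eq, p4, mk2_star, mk2_mul, mk2_mul]
    refine mk2_congr ?_ ?_ ?_ ?_ <;> simp <;> first | ring1 | linear_combination (16/25) * hI

lemma decomp4 (m : M2) (hm : ∀ i j, ‖m i j‖ ≤ 1) : ∃ c1 c2 c3 c4 : ℂ,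
    ‖c1‖ + ‖c2‖ + ‖c3‖ + ‖c4‖ ≤ 11 ∧
    ∀ i j, m i j = c1 * p0 i j + c2 * p1 i j + c3 * p3 i j + c4 * p4 i j := by
  have hI : Complex.I * Complex.I = -1 := Complex.I_mul_I
  set a := m false false
  set b := m false true
  set c := m true false
  set d := m true true
  have ha : ‖a‖ ≤ 1 := hm _ _
  have hb : ‖b‖ ≤ 1 := hm _ _
  have hc : ‖c‖ ≤ 1 := hm _ _
  have hd : ‖d‖ ≤ 1 := hm _ _
  have h3 : ‖(25/24 : ℂ) * (b + c)‖ ≤ 25/12 := by
    rw [norm_mul]; have := norm_add_le b c
    have h : ‖(25/24 : ℂ)‖ = 25/24 := by simp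
    rw [h]; linarith
  have h4 : ‖(25/24 : ℂ) * Complex.I * (b - c)‖ ≤ 25/12 := by
    rw [norm_mul, norm_mul]; have := norm_sub_le b c
    have h : ‖(25/24 : ℂ)‖ = 25/24 := by simp
    rw [h, Complex.norm_I]; linarith
  set c3 := (25/24 : ℂ) * (b + c) with hc3
  set c4 := (25/24 : ℂ) * Complex.I * (b - c) with hc4
  have h34 : ‖c3 + c4‖ ≤ 25/6 := by have := norm_add_le c3 c4; linarith
  refine ⟨a - 9/25 * (c3 + c4), d - 16/25 * (c3 + c4), c3, c4, ?_, ?_⟩
  · have e1 : ‖a - 9/25 * (c3 + c4)‖ ≤ 1 + 9/25 * (25/6) := by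
      have := norm_sub_le a (9/25 * (c3 + c4))
      rw [norm_mul] at this
      have h : ‖(9/25 : ℂ)‖ = 9/25 := by simp
      rw [h] at this; linarith
    have e2 : ‖d - 16/25 * (c3 + c4)‖ ≤ 1 + 16/25 * (25/6) := by
      have := norm_sub_le d (16/25 * (c3 + c4))
      rw [norm_mul] at this
      have h : ‖(16/25 : ℂ)‖ = 16/25 := by simp
      rw [h] at this; linarith
    linarith
  · intro i j
    rw [p0_eq, p1_eq, p3, p4]
    cases i <;> cases j <;> simp only [mk2, Matrix.of_apply, if_true, Bool.false_eq_true, if_false]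
    · show a = _; ring
    · show b = _; rw [hc3, hc4]; linear_combination (1/2 * (b - c)) * hI
    · show c = _; rw [hc3, hc4]; linear_combination (-1/2 * (b - c)) * hI
    · show d = _; ring

/-- expansion of a product operator into products of projectors -/
lemma norm_prodM_expand (X Y : Mat ι) (C : ℝ)
    (h : ∀ (w : ι → M2) (A : Finset ι), (∀ i, w i ∈ unitary M2) →
      ‖X * (prodM w * Dm A * star (prodM w)) * Y‖ ≤ C) (S : Finset ι) :
    ∀ M : ι → M2, (∀ i ∉ S, Basic (M i)) → (∀ i ∈ S, ∀ a b, ‖M i a b‖ ≤ 1) →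
      ‖X * prodM M * Y‖ ≤ 11 ^ S.card * C := by
  have hC : 0 ≤ C := le_trans (norm_nonneg _) (h (fun _ => 1) ∅ fun _ => one_mem _)
  classical
  induction S using Finset.induction_on with
  | empty =>
    intro M hM _
    have : ∀ i, ∃ w ∈ unitary M2, M i = w * (if M i ≠ 1 then p0 else 1) * star w := by
      intro i
      by_cases h1 : M i = 1
      · exact ⟨1, one_mem _, by simp [h1]⟩
      · rcases hM i (Finset.notMem_empty i) with h2 | ⟨w, hw, h2⟩
        · exact absurd h2 h1
        · exact ⟨w, hw, by rw [if_pos h1]; exact h2⟩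
    choose w hw hw2 using this
    have e : prodM M = prodM w * Dm (univ.filter fun i => M i ≠ 1) * star (prodM w) := by
      rw [Dm_eq_prodM, star_prodM, prodM_mul, prodM_mul]; congr 1; ext1 i
      simp only [Finset.mem_filter, Finset.mem_univ, true_and]; exact hw2 i
    rw [e]; simpa using h w _ hw
  | insert i S hi ih =>
    intro M hM hM'
    obtain ⟨c1, c2, c3, c4, hc, hd⟩ := decomp4 (M i) (hM' i (Finset.mem_insert_self _ _))
    have key : ∀ p : M2, Basic p → ‖X * prodM (Function.update M i p) * Y‖ ≤ 11 ^ S.card * C := by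
      intro p hp
      refine ih _ (fun j hj => ?_) (fun j hj => ?_)
      · by_cases hji : j = i
        · subst hji; simpa using hp
        · rw [Function.update_of_ne hji]; exact hM j (by simp [hji, hj])
      · have hji : j ≠ i := fun h => hi (h ▸ hj)
        rw [Function.update_of_ne hji]; exact hM' j (Finset.mem_insert_of_mem hj)
    have e : prodM M = c1 • prodM (Function.update M i p0) + c2 • prodM (Function.update M i p1)
        + c3 • prodM (Function.update M i p3) + c4 • prodM (Function.update M i p4) := by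
      ext x y
      conv_lhs => rw [← Function.update_eq_self i M]
      simp only [Matrix.add_apply, Matrix.smul_apply, prodM_update, smul_eq_mul]
      rw [hd]; ring
    rw [e, Finset.card_insert_of_notMem hi]
    simp only [mul_add, add_mul, mul_smul_comm, smul_mul_assoc]
    have k0 := key _ basic_p0
    have k1 := key _ basic_p1
    have k3 := key _ basic_p3
    have k4 := key _ basic_p4
    have hK : (0:ℝ) ≤ 11 ^ S.card * C := by positivity
    calc _ ≤ ‖c1 • (X * prodM (Function.update M i p0) * Y)‖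
          + ‖c2 • (X * prodM (Function.update M i p1) * Y)‖
          + ‖c3 • (X * prodM (Function.update M i p3) * Y)‖
          + ‖c4 • (X * prodM (Function.update M i p4) * Y)‖ :=
            le_trans (norm_add_le _ _) (add_le_add_left (norm_add₃_le) _)
      _ ≤ ‖c1‖ * (11 ^ S.card * C) + ‖c2‖ * (11 ^ S.card * C) + ‖c3‖ * (11 ^ S.card * C)
          + ‖c4‖ * (11 ^ S.card * C) := by
            simp only [norm_smul]; gcongr
      _ = (‖c1‖ + ‖c2‖ + ‖c3‖ + ‖c4‖) * (11 ^ S.card * C) := by ring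
      _ ≤ 11 * (11 ^ S.card * C) := by gcongr
      _ = _ := by ring

def EB (ι : Type) [Fintype ι] [DecidableEq ι] (d s : ℕ) (e : ℝ) : Prop :=
  ∀ U : Mat ι, Cls d U → ∀ A B : Finset ι, ‖Fm B s * (U * Dm A * star U) * Dm B‖ ≤ e

def GB (ι : Type) [Fintype ι] [DecidableEq ι] (d s m : ℕ) (e : ℝ) : Prop :=
  ∀ U : Mat ι, Cls d U → ∀ S B : Finset ι, S.card ≤ m →
    ‖Fm B s * (U * Hm S * star U) * Dm B‖ ≤ e

lemma EB.nonneg {d s : ℕ} {e : ℝ} (h : EB ι d s e) : 0 ≤ e :=
  le_trans (norm_nonneg _) (h 1 (Cls.one d) ∅ ∅)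

lemma conj_Hm (w : ι → M2) (hw : ∀ i, w i ∈ unitary M2) (S : Finset ι) :
    prodM w * Hm S * star (prodM w) =
      prodM (fun i => if i ∈ S then w i * p1 * star (w i) else 1) := by
  rw [Hm_eq_prodM, star_prodM, prodM_mul, prodM_mul]; congr 1; ext1 i
  by_cases hi : i ∈ S
  · simp [hi]
  · simp only [hi, if_false, mul_one]; exact (Unitary.mem_iff.mp (hw i)).2

lemma GB_zero {s m : ℕ} (hms : m < s) : GB ι 0 s m 0 := by
  rintro U ⟨w, hw, rfl⟩ S B hS
  rw [conj_Hm w hw]
  apply le_of_eq; rw [norm_eq_zero]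
  ext x y
  unfold Fm Dm
  rw [mul_diagonal, diagonal_mul]
  by_cases h1 : s ≤ wt B x
  · by_cases h2 : wt B y = 0
    · have : ∃ i ∉ S, x i ≠ y i := by
        by_contra hcon
        push Not at hcon
        have : B.filter (fun i => x i = true) ⊆ S := by
          intro i hi
          rw [Finset.mem_filter] at hi
          by_contra hiS
          have := hcon i hiS
          rw [hi.2, wt_eq_zero.mp h2 i hi.1] at this
          exact absurd this (by simp)
        have := Finset.card_le_card this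
        unfold wt at h1; omega
      obtain ⟨i, hi, hxy⟩ := this
      have : prodM (fun i => if i ∈ S then w i * p1 * star (w i) else 1) x y = 0 := by
        rw [prodM_apply]; refine Finset.prod_eq_zero (Finset.mem_univ i) ?_
        simp only [hi, if_false]; rw [one_apply_ne hxy]
      rw [this]; simp
    · simp [h2]
  · simp [h1]

lemma entry_le_one {w : M2} (hw : w ∈ unitary M2) (θ θ' : M2) (hθ : θ = 1 ∨ θ = p1)
    (hθ' : θ' = 1 ∨ θ' = p1) (a b : Bool) : ‖(θ * (w * p1 * star w) * θ') a b‖ ≤ 1 := by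
  have h1 : ∀ a b, ‖w a b‖ ≤ 1 := fun a b => entry_norm_bound_of_unitary hw a b
  have h2 : ∀ a b, ‖(w * p1 * star w) a b‖ ≤ 1 := by
    intro a b
    have : (w * p1 * star w) a b = w a true * star (w b true) := by
      simp [Matrix.mul_apply, p1, Matrix.star_apply, diagonal]
    rw [this, norm_mul, norm_star]
    exact mul_le_one₀ (h1 _ _) (norm_nonneg _) (h1 _ _)
  have h3 : ∀ (k : M2), (∀ a b, ‖k a b‖ ≤ 1) → ∀ a b, ‖(p1 * k) a b‖ ≤ 1 := by
    intro k hk a b; unfold p1; rw [diagonal_mul]; split_ifs <;> simp [hk]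
  have h4 : ∀ (k : M2), (∀ a b, ‖k a b‖ ≤ 1) → ∀ a b, ‖(k * p1) a b‖ ≤ 1 := by
    intro k hk a b; unfold p1; rw [mul_diagonal]; split_ifs <;> simp [hk]
  rcases hθ with rfl | rfl <;> rcases hθ' with rfl | rfl
  · simpa using h2 a b
  · rw [one_mul]; exact h4 _ h2 a b
  · rw [mul_one]; exact h3 _ h2 a b
  · exact h4 _ (h3 _ h2) a b

lemma p1_mul_p1 : p1 * p1 = p1 := by rw [p1_eq, mk2_mul]; simp

lemma card_touch {T : Finset (Finset ι)} (hT : PD T) (S : Finset ι) :
    (T.filter fun g => ¬ Disjoint g S).card ≤ S.card := by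
  classical
  have : ∀ g : Finset ι, ¬ Disjoint g S → ∃ i, i ∈ g ∧ i ∈ S := by
    intro g hg; exact Finset.not_disjoint_iff.mp hg
  rcases S.eq_empty_or_nonempty with rfl | ⟨i0, hi0⟩
  · simp
  have hne0 : Nonempty ι := ⟨i0⟩
  choose! f hf using fun g (hg : ¬ Disjoint g S) => this g hg
  refine Finset.card_le_card_of_injOn f (fun g hg => ?_) (fun g hg g' hg' hgg => ?_)
  · simp only [Finset.coe_filter, Set.mem_ofPred_eq] at hg; exact (hf g hg.2).2
  · simp only [Finset.coe_filter, Set.mem_ofPred_eq] at hg hg'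
    by_contra hne
    exact Finset.disjoint_left.mp (hT g hg.1 g' hg'.1 hne) (hf g hg.2).1 (hgg ▸ (hf g' hg'.2).1)

lemma GB_succ {d s m : ℕ} {e : ℝ} (h : EB ι d s e) : GB ι (d + 1) s m (99 ^ m * e) := by
  classical
  have he := h.nonneg
  rintro U ⟨U', T, w, hU', hT, hw, rfl⟩ S B hS
  set K : Mat ι := prodM (fun i => if i ∈ S then w i * p1 * star (w i) else 1) with hK
  set T1 := T.filter fun g => ¬ Disjoint g S
  set T2 := T.filter fun g => Disjoint g S
  have hL : Lm T = Lm T1 * Lm T2 := by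
    rw [← Lm_union (Finset.disjoint_filter_filter_not T T (fun g => Disjoint g S)).symm]
    congr 1; rw [Finset.union_comm]; exact (Finset.filter_union_filter_not_eq _ _).symm
  have hcomm : Lm T2 * K = K * Lm T2 := by
    refine prodM_comm_diag _ S (fun i hi => by simp [hi]) _ (lf_indep T2 S fun g hg => ?_)
    exact (Finset.mem_filter.mp hg).2
  have hL' : Lm T = Lm T2 * Lm T1 := by
    rw [hL]; unfold Lm; rw [diagonal_mul_diagonal, diagonal_mul_diagonal]; congr 1; ext x; ring
  have e1 : U' * Lm T * prodM w * Hm S * star (U' * Lm T * prodM w)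
      = U' * Lm T1 * K * Lm T1 * star U' := by
    rw [star_mul, star_mul, star_Lm]
    calc _ = U' * Lm T * (prodM w * Hm S * star (prodM w)) * Lm T * star U' := by
            simp only [mul_assoc]
      _ = U' * (Lm T1 * Lm T2) * K * (Lm T2 * Lm T1) * star U' := by
            rw [conj_Hm w hw, ← hL, ← hL']
      _ = U' * Lm T1 * (Lm T2 * K) * Lm T2 * Lm T1 * star U' := by simp only [mul_assoc]
      _ = U' * Lm T1 * K * (Lm T2 * Lm T2) * Lm T1 * star U' := by
            rw [hcomm]; simp only [mul_assoc]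
      _ = _ := by rw [Lm_mul_self, mul_one]
  rw [e1]
  have hc : T1.card ≤ m := (card_touch hT S).trans hS
  have step : ∀ R R' : Finset ι,
      ‖Fm B s * U' * Hm R * K * Hm R' * (star U' * Dm B)‖ ≤ 11 ^ S.card * e := by
    intro R R'
    have e2 : Fm B s * U' * Hm R * K * Hm R' * (star U' * Dm B)
        = Fm B s * U' * (Hm R * K * Hm R') * (star U' * Dm B) := by simp only [mul_assoc]
    rw [e2, Hm_eq_prodM R, Hm_eq_prodM R', hK, prodM_mul, prodM_mul]
    refine norm_prodM_expand _ _ e (fun v A hv => ?_) S _ (fun i hi => ?_) (fun i hi => ?_)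
    · have := h (U' * prodM v) (hU'.mul_right hv) A B
      rw [star_mul] at this
      simpa only [mul_assoc] using this
    · simp only [hi, if_false, mul_one]
      split_ifs
      · rw [p1_mul_p1]; exact basic_p1
      · rw [mul_one]; exact basic_p1
      · rw [one_mul]; exact basic_p1
      · rw [one_mul]; exact Or.inl rfl
    · simp only [hi, if_true]
      refine entry_le_one (hw i) _ _ ?_ ?_ <;> split_ifs <;> simp
  have step2 : ∀ R : Finset ι,
      ‖Fm B s * U' * Hm R * (K * Lm T1 * (star U' * Dm B))‖ ≤ 3 ^ T1.card * (11 ^ S.card * e) := by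
    intro R
    have := norm_Lm_expand T1 _ (Fm B s * U' * Hm R * K) (star U' * Dm B) (step R)
    simpa only [mul_assoc] using this
  have step3 := norm_Lm_expand T1 _ (Fm B s * U') (K * Lm T1 * (star U' * Dm B)) step2
  have e3 : Fm B s * (U' * Lm T1 * K * Lm T1 * star U') * Dm B
      = Fm B s * U' * Lm T1 * (K * Lm T1 * (star U' * Dm B)) := by simp only [mul_assoc]
  rw [e3]
  refine step3.trans ?_
  have a1 : (3:ℝ) ^ T1.card ≤ 3 ^ m := pow_le_pow_right₀ (by norm_num) hc
  have a2 : (11:ℝ) ^ S.card ≤ 11 ^ m := pow_le_pow_right₀ (by norm_num) hS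
  calc _ ≤ 3 ^ m * (3 ^ m * (11 ^ m * e)) := by gcongr
    _ = _ := by rw [show (99:ℝ) = 3 * (3 * 11) by norm_num, mul_pow, mul_pow]; ring

def Approx (m s' : ℕ) (τ : ℝ) : Prop :=
  ∃ c : ℕ → ℝ, (∀ k, |c k| ≤ 2 ^ k) ∧ (∀ k, m < k → c k = 0) ∧ c 0 = 1 ∧
    ∀ j, 1 ≤ j → j ≤ s' → |∑ k ∈ range (j + 1), (j.choose k : ℝ) * c k| ≤ τ

lemma newton_sum (c : ℕ → ℝ) (A : Finset ι) (x : ι → Bool) :
    ∑ S ∈ A.powerset, ((c S.card : ℝ) : ℂ) * hf S x =
      ((∑ k ∈ range (wt A x + 1), ((wt A x).choose k : ℝ) * c k : ℝ) : ℂ) := by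
  classical
  have h1 : ∑ S ∈ A.powerset, ((c S.card : ℝ) : ℂ) * hf S x =
      ∑ S ∈ (A.filter fun i => x i = true).powerset, ((c S.card : ℝ) : ℂ) := by
    unfold hf
    simp only [mul_ite, mul_one, mul_zero]
    rw [← Finset.sum_filter]
    refine Finset.sum_congr ?_ fun _ _ => rfl
    ext S; simp only [Finset.mem_filter, Finset.mem_powerset, Finset.subset_iff]
    constructor
    · rintro ⟨h1, h2⟩ i hi; exact ⟨h1 hi, h2 i hi⟩
    · intro h; exact ⟨fun i hi => (h hi).1, fun i hi => (h hi).2⟩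
  rw [h1, Finset.sum_powerset_apply_card (fun k => ((c k : ℝ) : ℂ))]
  unfold wt; push_cast; simp only [nsmul_eq_mul]

lemma coef_sum_le {m : ℕ} {c : ℕ → ℝ} (h1 : ∀ k, |c k| ≤ 2 ^ k) (h2 : ∀ k, m < k → c k = 0)
    (A : Finset ι) : ∑ S ∈ A.powerset, |c S.card| ≤ (2 * Fintype.card ι + 1) ^ m := by
  rw [Finset.sum_powerset_apply_card (fun k => |c k|)]
  set N := Fintype.card ι
  have hA : A.card ≤ N := Finset.card_le_univ A
  have hb : ∀ k, A.card.choose k • |c k| ≤ if k ∈ range (m + 1) then (2 * (N:ℝ)) ^ k else 0 := by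
    intro k
    split_ifs with hk
    · rw [nsmul_eq_mul, mul_pow, mul_comm]
      have : (A.card.choose k : ℝ) ≤ (N:ℝ) ^ k := by
        have := Nat.choose_le_pow A.card k
        have h3 : A.card ^ k ≤ N ^ k := Nat.pow_le_pow_left hA k
        exact_mod_cast this.trans h3
      exact mul_le_mul (h1 k) this (by positivity) (by positivity)
    · rw [h2 k (by simpa using hk)]; simp
  calc _ ≤ ∑ k ∈ range (A.card + 1), if k ∈ range (m + 1) then (2 * (N:ℝ)) ^ k else 0 :=
        Finset.sum_le_sum fun k _ => hb k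
    _ ≤ ∑ k ∈ range (m + 1), (2 * (N:ℝ)) ^ k := by
        rw [← Finset.sum_filter]
        exact Finset.sum_le_sum_of_subset_of_nonneg (fun k hk => (Finset.mem_filter.mp hk).2)
          (fun _ _ _ => by positivity)
    _ ≤ _ := by
        rw [add_pow]
        refine Finset.sum_le_sum fun k hk => ?_
        have : 1 ≤ (m.choose k : ℝ) := by
          exact_mod_cast Nat.choose_pos (Nat.lt_succ_iff.mp (Finset.mem_range.mp hk))
        rw [one_pow, mul_one]
        exact le_mul_of_one_le_right (by positivity) this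

lemma norm_unit_le {U : Mat ι} (hU : U ∈ unitary (Mat ι)) : ‖U‖ ≤ 1 :=
  (CStarRing.norm_of_mem_unitary hU).le

lemma EB_rec {d s s' m : ℕ} {τ g e' : ℝ} (hτ : 0 ≤ τ) (hA : Approx m s' τ) (hG : GB ι d s m g)
    (hE : EB ι d (s' + 1) e') :
    EB ι d s (√((2 * Fintype.card ι + 1) ^ m * g + τ + (2 * Fintype.card ι + 1) ^ m * e')) := by
  classical
  obtain ⟨c, hc1, hc2, hc0, hc3⟩ := hA
  have he' := hE.nonneg
  have hg : 0 ≤ g := le_trans (norm_nonneg _) (hG 1 (Cls.one d) ∅ ∅ (by simp))
  set K : ℝ := (2 * Fintype.card ι + 1) ^ m with hK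
  have hK0 : 0 ≤ K := by positivity
  intro U hU A B
  have hUu := hU.unit
  have hU1 : star U * U = 1 := (Unitary.mem_iff.mp hUu).1
  set η := U * Dm A * star U with hη
  set q : (ι → Bool) → ℂ := fun x => ∑ S ∈ A.powerset, ((c S.card : ℝ) : ℂ) * hf S x with hq
  have hqK : ∀ x, ‖q x‖ ≤ K := by
    intro x
    refine le_trans (norm_sum_le _ _) (le_trans (Finset.sum_le_sum fun S _ => ?_)
      (coef_sum_le hc1 hc2 A))
    rw [norm_mul, Complex.norm_real, Real.norm_eq_abs]
    refine mul_le_of_le_one_right (abs_nonneg _) ?_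
    unfold hf; split_ifs <;> simp
  have hQ : (diagonal q : Mat ι) = ∑ S ∈ A.powerset, ((c S.card : ℝ) : ℂ) • Hm S := by
    ext x y
    simp only [Matrix.sum_apply, Matrix.smul_apply, Hm, smul_eq_mul]
    by_cases h : x = y
    · subst h; simp [hq]
    · simp [diagonal_apply_ne _ h]
  -- first term
  have t1 : ‖Fm B s * (U * diagonal q * star U) * Dm B‖ ≤ K * g := by
    rw [hQ]
    simp only [Finset.mul_sum, Finset.sum_mul, mul_smul_comm, smul_mul_assoc]
    refine le_trans (norm_sum_le _ _) ?_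
    calc _ ≤ ∑ S ∈ A.powerset, |c S.card| * g := by
          refine Finset.sum_le_sum fun S _ => ?_
          rw [norm_smul, Complex.norm_real, Real.norm_eq_abs]
          by_cases hS : S.card ≤ m
          · exact mul_le_mul_of_nonneg_left (hG U hU S B hS) (abs_nonneg _)
          · rw [hc2 _ (not_le.mp hS)]; simp
      _ = (∑ S ∈ A.powerset, |c S.card|) * g := by rw [Finset.sum_mul]
      _ ≤ K * g := mul_le_mul_of_nonneg_right (coef_sum_le hc1 hc2 A) hg
  -- splitting the error
  set r1 : (ι → Bool) → ℂ := fun x => if 1 ≤ wt A x ∧ wt A x ≤ s' then q x else 0 with hr1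
  have hsplit : (diagonal q : Mat ι) = Dm A + diagonal r1 + diagonal q * Fm A (s' + 1) := by
    unfold Dm Fm
    rw [diagonal_mul_diagonal, diagonal_add, diagonal_add]; congr 1; ext x
    simp only [hr1]
    by_cases h0 : wt A x = 0
    · have : q x = 1 := by simp only [hq]; rw [newton_sum, h0]; simp [hc0]
      simp [h0, this]
    · by_cases h1 : wt A x ≤ s'
      · have : ¬ s' + 1 ≤ wt A x := by omega
        have h2 : 1 ≤ wt A x := by omega
        simp [h0, h1, this, h2]
      · have : s' + 1 ≤ wt A x := by omega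
        simp [h0, h1, this]
  have hr : ‖(diagonal r1 : Mat ι)‖ ≤ τ := by
    refine norm_diag_le hτ fun x => ?_
    simp only [hr1]; split_ifs with h
    · simp only [hq]; rw [newton_sum, Complex.norm_real, Real.norm_eq_abs]
      exact hc3 _ h.1 h.2
    · simpa using hτ
  have hηn : ‖η‖ ≤ 1 := by
    rw [hη, CStarRing.norm_mul_mem_unitary _ (Unitary.star_mem hUu),
      CStarRing.norm_mem_unitary_mul _ hUu]
    exact norm_Dm_le A
  have hηs : star η = η := by rw [hη, star_mul, star_mul, star_star, star_Dm, mul_assoc]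
  have hF := norm_Fm_le B s
  have hP := norm_Dm_le B
  have hUn := norm_unit_le hUu
  have hUn' := norm_unit_le (Unitary.star_mem hUu)
  have t2 : ‖Fm B s * (U * diagonal r1 * star U) * Dm B * η‖ ≤ τ := by
    calc _ ≤ ‖Fm B s‖ * (‖U‖ * ‖(diagonal r1 : Mat ι)‖ * ‖star U‖) * ‖Dm B‖ * ‖η‖ := by
          refine (norm_mul_le _ _).trans ?_; gcongr
          refine (norm_mul_le _ _).trans ?_; gcongr
          refine (norm_mul_le _ _).trans ?_; gcongr
          exact norm_mul₃_le
      _ ≤ 1 * (1 * τ * 1) * 1 * 1 := by gcongr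
      _ = τ := by ring
  have t3 : ‖Fm B s * (U * (diagonal q * Fm A (s' + 1)) * star U) * Dm B * η‖ ≤ K * e' := by
    have h3 := hE (star U) hU.adj B A
    rw [star_star] at h3
    have e : Fm B s * (U * (diagonal q * Fm A (s' + 1)) * star U) * Dm B * η =
        Fm B s * U * diagonal q * (Fm A (s' + 1) * (star U * Dm B * U) * Dm A) * star U := by
      rw [hη]; simp only [mul_assoc]
    rw [e]
    have hqn : ‖(diagonal q : Mat ι)‖ ≤ K := norm_diag_le hK0 hqK
    calc _ ≤ ‖Fm B s‖ * ‖U‖ * ‖(diagonal q : Mat ι)‖ *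
            ‖Fm A (s' + 1) * (star U * Dm B * U) * Dm A‖ * ‖star U‖ := by
          refine (norm_mul_le _ _).trans ?_; gcongr
          refine (norm_mul_le _ _).trans ?_; gcongr
          exact norm_mul₃_le
      _ ≤ 1 * 1 * K * e' * 1 := by gcongr
      _ = _ := by ring
  have t1' : ‖Fm B s * (U * diagonal q * star U) * Dm B * η‖ ≤ K * g := by
    refine (norm_mul_le _ _).trans ?_
    calc _ ≤ K * g * 1 := by gcongr
      _ = _ := mul_one _
  have e4 : Fm B s * η * Dm B * η = Fm B s * (U * diagonal q * star U) * Dm B * η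
      - Fm B s * (U * diagonal r1 * star U) * Dm B * η
      - Fm B s * (U * (diagonal q * Fm A (s' + 1)) * star U) * Dm B * η := by
    have : U * diagonal q * star U = η + U * diagonal r1 * star U
        + U * (diagonal q * Fm A (s' + 1)) * star U := by
      conv_lhs => rw [hsplit]
      rw [hη]; simp only [mul_add, add_mul]
    rw [this]; simp only [mul_add, add_mul]; abel
  have t4 : ‖Fm B s * η * Dm B * η‖ ≤ K * g + τ + K * e' := by
    rw [e4]
    refine (norm_sub_le _ _).trans (add_le_add ((norm_sub_le _ _).trans (add_le_add t1' t2)) t3)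
  refine Real.le_sqrt_of_sq_le ?_
  have e5 : ‖Fm B s * η * Dm B‖ ^ 2 = ‖Fm B s * η * Dm B * η * Fm B s‖ := by
    rw [sq, ← CStarRing.norm_self_mul_star, star_mul, star_mul, star_Dm, hηs, star_Fm]
    have e6 : Fm B s * η * Dm B * (Dm B * (η * Fm B s))
        = Fm B s * η * (Dm B * Dm B) * η * Fm B s := by simp only [mul_assoc]
    rw [e6, Dm_mul_Dm]
  rw [e5]
  refine (norm_mul_le _ _).trans ?_
  have hn : 0 ≤ K * g + τ + K * e' := le_trans (norm_nonneg _) t4
  calc _ ≤ (K * g + τ + K * e') * 1 := mul_le_mul t4 hF (norm_nonneg _) hn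
    _ = _ := mul_one _

lemma EB.mono {d s s' : ℕ} {e e' : ℝ} (h : EB ι d s e) (hs : s ≤ s') (he : e ≤ e') :
    EB ι d s' e' := by
  intro U hU A B
  have : Fm B s' = Fm B s' * Fm B s := by
    unfold Fm; rw [diagonal_mul_diagonal]; congr 1; ext x
    by_cases h1 : s' ≤ wt B x
    · simp [h1, hs.trans h1]
    · simp [h1]
  rw [this, mul_assoc, mul_assoc, ← mul_assoc (Fm B s)]
  refine (norm_mul_le _ _).trans ?_
  have h0 := h.nonneg
  calc _ ≤ 1 * e := by gcongr; exacts [norm_Fm_le _ _, h U hU A B]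
    _ ≤ e' := by linarith

lemma EB_big {d s : ℕ} (hs : Fintype.card ι < s) {e : ℝ} (he : 0 ≤ e) : EB ι d s e := by
  intro U _ A B
  have : Fm B s = 0 := by
    unfold Fm; rw [← diagonal_zero]; congr 1; ext x
    have : wt B x ≤ Fintype.card ι := Finset.card_le_univ _
    rw [if_neg (by omega)]
  rw [this]; simpa using he

end Vale.Agent.P368
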